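import Vale.Agent.P040.H870.Loc

/-!
# Marks on a meander and their behaviour under the deletion of a leaf (helper870)

The circle (spine) carries one mark, at infinity.  The chords carry marks `lam`, three in total;
`lab` is the number (mod 3) of marks passed along the closed curve formed by the chords.
-/

set_option linter.unusedVariables false
set_option linter.unusedSectionVars false

namespace Vale.Agent.P040.H870

open Vale.Agent.P040.H906 P040H251

variable {W : Type*} [LinearOrder W]

/-- the forward arc from `x` to `y` passes infinity -/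
def wr (x y : W) : ℤ := if y < x then 1 else 0

/-- integer sign of a page -/
def sz (b : Bool) : ℤ := if b then 1 else -1

theorem sz_not (b : Bool) : sz (!b) = - sz b := by cases b <;> simp [sz]

/-- Marks: `lam b x` is the number of marks on the chord of page `b` at `x`. -/
structure Mk (c : Cfg W) (col : W → Bool) (e : W → ℤ) (H : ℤ) (lam : Bool → W → ℕ)
    (lab : W → ZMod 3) : Prop where
  sym : ∀ b, ∀ x ∈ c.S, lam b (c.f b x) = lam b x
  par : ∀ b, ∀ x ∈ c.S,
    (4 : ℤ) ∣ H + sz b * (e (c.f b x) - e x) - 2 * (wr x (c.f b x) + lam b x)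
  tot : ∑ x ∈ c.S, (lam true x + lam false x) ≤ 6
  lab : ∀ x ∈ c.S, lab (c.f (col x) x) = lab x + lam (col x) x

/-- the marks after the deletion of a leaf -/
def lamDel (c : Cfg W) (lam : Bool → W → ℕ) (b : Bool) (x : W) : Bool → W → ℕ := fun b' y =>
  if b' = b then lam b' y else
    if c.f b' y = x ∨ c.f b' y = c.f b x then lam (!b) x + lam b x + lam (!b) (c.f b x)
    else lam b' y

/-- the four points around a leaf -/
structure Around (c : Cfg W) (b : Bool) (x : W) : Prop where
  hx : x ∈ c.S
  hq : c.f b x ∈ c.S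
  hP : c.f (!b) x ∈ c.S
  hQ : c.f (!b) (c.f b x) ∈ c.S
  qx : c.f b x ≠ x
  Px : c.f (!b) x ≠ x
  Qx : c.f (!b) (c.f b x) ≠ x
  Pq : c.f (!b) x ≠ c.f b x
  Qnq : c.f (!b) (c.f b x) ≠ c.f b x
  PQ : c.f (!b) x ≠ c.f (!b) (c.f b x)
  iq : c.f b (c.f b x) = x
  iP : c.f (!b) (c.f (!b) x) = x
  iQ : c.f (!b) (c.f (!b) (c.f b x)) = c.f b x
  o1 : Cyc x (c.f b x) (c.f (!b) (c.f b x))
  o2 : Cyc x (c.f (!b) (c.f b x)) (c.f (!b) x)
  o3 : Cyc (c.f b x) (c.f (!b) (c.f b x)) (c.f (!b) x)
  o4 : Cyc x (c.f b x) (c.f (!b) x)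

theorem around {c : Cfg W} {b : Bool} {x : W} (hg : c.Good) (hc : 2 < c.S.card)
    (hl : c.Leaf b x) : Around c b x := by
  obtain ⟨hx, hleaf⟩ := hl
  have hq := hg.mem b x hx
  have hP := hg.mem (!b) x hx
  have hQ := hg.mem (!b) _ hq
  have hqx := hg.ne b x hx
  have hPx := hg.ne (!b) x hx
  have hQq := hg.ne (!b) _ hq
  have hPq := hg.ne_other hc b hx
  have iq := hg.inv b x hx
  have iP := hg.inv (!b) x hx
  have iQ := hg.inv (!b) _ hq
  have hQx : c.f (!b) (c.f b x) ≠ x := by
    intro he; apply hPq; rw [← he, iQ, he]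
  have hPQ : c.f (!b) x ≠ c.f (!b) (c.f b x) := by
    intro he; exact hqx (hg.inj hx hq he).symm
  obtain ⟨o1, o2, o3, o4⟩ := Cfg.leaf_order hqx.symm hPx.symm hQx.symm hPq.symm hQq.symm hPQ
    (hleaf _ hP) (hleaf _ hQ) (fun h => hg.nc (!b) x hx _ hq h)
  exact ⟨hx, hq, hP, hQ, hqx, hPx, hQx, hPq, hQq, hPQ, iq, iP, iQ, o1, o2, o3, o4⟩

theorem wr_split {p q P Q : W} (o1 : Cyc p q Q) (o2 : Cyc p Q P) :
    wr P Q = wr P p + wr p q + wr q Q := by
  unfold wr Cyc at *
  rcases lt_trichotomy p q with h | h | h <;> rcases lt_trichotomy q Q with h' | h' | h' <;>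
    rcases lt_trichotomy P p with h'' | h'' | h'' <;> split_ifs <;> simp <;> grind

theorem wr_swap {x y : W} (h : x ≠ y) : wr x y + wr y x = 1 := by
  unfold wr
  rcases lt_or_gt_of_ne h with h | h
  · rw [if_neg (not_lt.2 h.le), if_pos h]; rfl
  · rw [if_pos h, if_neg (not_lt.2 h.le)]; rfl

section
variable {c : Cfg W} {col : W → Bool} {e : W → ℤ} {H : ℤ} {lam : Bool → W → ℕ}
  {lab : W → ZMod 3} {b : Bool} {x : W}

theorem lamDel_same (y : W) : lamDel c lam b x b y = lam b y := by simp [lamDel]

theorem lamDel_other (y : W) : lamDel c lam b x (!b) y =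
    if c.f (!b) y = x ∨ c.f (!b) y = c.f b x then lam (!b) x + lam b x + lam (!b) (c.f b x)
    else lam (!b) y := by simp [lamDel]

theorem Mk.del (hg : c.Good) (hc : 2 < c.S.card) (hcol : ColOK col c) (hH : Odd H)
    (hl : c.Leaf b x) (h : Mk c col e H lam lab) :
    Mk (c.del b x) col e H (lamDel c lam b x) lab := by
  have A := around hg hc hl
  set q := c.f b x with hqd
  set P := c.f (!b) x with hPd
  set Q := c.f (!b) q with hQd
  have sq : lam b q = lam b x := h.sym b x A.hx
  have sP : lam (!b) P = lam (!b) x := h.sym (!b) x A.hx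
  have sQ : lam (!b) Q = lam (!b) q := h.sym (!b) q A.hq
  have mP : P ∈ (c.del b x).S := Cfg.mem_del.2 ⟨A.Pq, A.Px, A.hP⟩
  have mQ : Q ∈ (c.del b x).S := Cfg.mem_del.2 ⟨A.Qnq, A.Qx, A.hQ⟩
  have fP : (c.del b x).f (!b) P = Q := by rw [Cfg.del_other, if_pos A.iP]
  have fQ : (c.del b x).f (!b) Q = P := by rw [Cfg.del_other, if_neg (by rw [A.iQ]; exact A.qx), if_pos A.iQ]
  have fo : ∀ y ∈ c.S, y ≠ P → y ≠ Q → (c.del b x).f (!b) y = c.f (!b) y ∧
      lamDel c lam b x (!b) y = lam (!b) y := by
    intro y hy h1 h2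
    have h3 : c.f (!b) y ≠ x := by
      intro he; apply h1; rw [← hg.inv (!b) y hy, he]
    have h4 : c.f (!b) y ≠ q := by
      intro he; apply h2; rw [← hg.inv (!b) y hy, he]
    rw [Cfg.del_other, if_neg h3, if_neg h4, lamDel_other, if_neg (by tauto)]
    exact ⟨rfl, rfl⟩
  have lP : lamDel c lam b x (!b) P = lam (!b) x + lam b x + lam (!b) q := by
    rw [lamDel_other, if_pos (Or.inl A.iP)]
  have lQ : lamDel c lam b x (!b) Q = lam (!b) x + lam b x + lam (!b) q := by
    rw [lamDel_other, if_pos (Or.inr A.iQ)]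
  refine ⟨?_, ?_, ?_, ?_⟩
  · -- sym
    intro b' y hy
    have hyS := (Cfg.mem_del.1 hy).2.2
    rcases Cfg.bool_cases b b' with rfl | rfl
    · rw [Cfg.del_same, lamDel_same, lamDel_same]; exact h.sym _ _ hyS
    · by_cases h1 : y = P
      · rw [h1, fP, lP, lQ]
      · by_cases h2 : y = Q
        · rw [h2, fQ, lP, lQ]
        · obtain ⟨k1, k2⟩ := fo y hyS h1 h2
          have h3 : c.f (!b) y ≠ P := by
            intro he
            exact (Cfg.mem_del.1 hy).2.1 (hg.inj hyS A.hx he)
          have h4 : c.f (!b) y ≠ Q := by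
            intro he
            exact (Cfg.mem_del.1 hy).1 (hg.inj hyS A.hq he)
          rw [k1, k2, (fo _ (hg.mem _ _ hyS) h3 h4).2]
          exact h.sym _ _ hyS
  · -- par
    intro b' y hy
    have hyS := (Cfg.mem_del.1 hy).2.2
    rcases Cfg.bool_cases b b' with rfl | rfl
    · rw [Cfg.del_same, lamDel_same]; exact h.par _ _ hyS
    · have p1 := h.par (!b) P A.hP
      have p2 := h.par (!b) q A.hq
      have p3 := h.par b x A.hx
      rw [A.iP] at p1
      have hw := wr_split A.o1 A.o2
      have hPQ : (4 : ℤ) ∣ H + sz (!b) * (e Q - e P) - 2 * (wr P Q +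
          ((lam (!b) x + lam b x + lam (!b) q : ℕ) : ℤ)) := by
        have e1 : H + sz (!b) * (e Q - e P) - 2 * (wr P Q +
            ((lam (!b) x + lam b x + lam (!b) q : ℕ) : ℤ)) =
            (H + sz (!b) * (e x - e P) - 2 * (wr P x + (lam (!b) P : ℤ))) +
            (H + sz (!b) * (e Q - e q) - 2 * (wr q Q + (lam (!b) q : ℤ))) -
            (H + sz b * (e q - e x) - 2 * (wr x q + (lam b x : ℤ))) -
            4 * (wr x q + (lam b x : ℤ)) := by
          rw [hw, sz_not, sP]
          push_cast
          ring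
        rw [e1]
        exact dvd_sub (dvd_sub (dvd_add p1 p2) p3) (dvd_mul_right _ _)
      by_cases h1 : y = P
      · rw [h1, fP, lP]; exact hPQ
      · by_cases h2 : y = Q
        · rw [h2, fQ, lQ]
          have hs := wr_swap A.PQ
          obtain ⟨k, hk⟩ := hH
          have e1 : H + sz (!b) * (e P - e Q) - 2 * (wr Q P +
              ((lam (!b) x + lam b x + lam (!b) q : ℕ) : ℤ)) =
              4 * (k - (lam (!b) x + lam b x + lam (!b) q : ℕ)) -
              (H + sz (!b) * (e Q - e P) - 2 * (wr P Q +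
              ((lam (!b) x + lam b x + lam (!b) q : ℕ) : ℤ))) := by
            have : wr Q P = 1 - wr P Q := by linarith
            rw [this, hk]
            ring
          rw [e1]
          exact dvd_sub (dvd_mul_right _ _) hPQ
        · obtain ⟨k1, k2⟩ := fo y hyS h1 h2
          rw [k1, k2]; exact h.par _ _ hyS
  · -- tot
    refine le_trans (le_of_eq ?_) h.tot
    have hsum : ∀ (g : W → ℕ), ∑ y ∈ c.S, g y = g x + g q + ∑ y ∈ (c.del b x).S, g y := by
      intro g
      have h1 : q ∈ c.S.erase x := Finset.mem_erase.2 ⟨A.qx, A.hq⟩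
      rw [← Finset.add_sum_erase c.S g A.hx, ← Finset.add_sum_erase (c.S.erase x) g h1, add_assoc]
      rfl
    have e1 : ∀ g : Bool → W → ℕ, ∀ T : Finset W,
        ∑ y ∈ T, (g true y + g false y) = ∑ y ∈ T, (g b y + g (!b) y) := by
      intro g T
      cases b
      · apply Finset.sum_congr rfl
        intro y _
        rw [add_comm]; rfl
      · rfl
    rw [e1, e1 lam, hsum (fun y => lam b y + lam (!b) y)]
    have h2 : ∀ y ∈ (c.del b x).S, lamDel c lam b x b y + lamDel c lam b x (!b) y =
        (lam b y + lam (!b) y) + ((if y = P then lam b x + lam (!b) q else 0) +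
        (if y = Q then lam b x + lam (!b) x else 0)) := by
      intro y hy
      have hyS := (Cfg.mem_del.1 hy).2.2
      rw [lamDel_same]
      by_cases h1 : y = P
      · rw [if_pos h1, if_neg (by rw [h1]; exact A.PQ), h1, lP, sP]; ring
      · by_cases h2 : y = Q
        · rw [if_neg h1, if_pos h2, h2, lQ, sQ]; ring
        · rw [if_neg h1, if_neg h2, (fo y hyS h1 h2).2]; ring
    rw [Finset.sum_congr rfl h2, Finset.sum_add_distrib, Finset.sum_add_distrib,
      Finset.sum_add_distrib, Finset.sum_ite_eq', Finset.sum_ite_eq', if_pos mP, if_pos mQ, sq]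
    ring
  · -- lab
    intro y hy
    have hyS := (Cfg.mem_del.1 hy).2.2
    rcases Cfg.bool_cases b (col y) with hcy | hcy
    · rw [hcy, Cfg.del_same, lamDel_same, ← hcy]; exact h.lab _ hyS
    · rw [hcy]
      by_cases h1 : y = P
      · -- P → x → q → Q
        rw [h1, fP, lP]
        have cP : col P = !b := by rw [← h1]; exact hcy
        have cx : col x = b := by
          have := hcol (!b) x A.hx
          rw [← hPd, cP] at this
          revert this; cases b <;> cases col x <;> simp
        have cq : col q = !b := by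
          have := hcol b x A.hx
          rw [← hqd, cx] at this
          exact this
        have l1 := h.lab P A.hP
        have l2 := h.lab x A.hx
        have l3 := h.lab q A.hq
        rw [cP, A.iP, sP] at l1
        rw [cx, ← hqd] at l2
        rw [cq, ← hQd] at l3
        rw [l3, l2, l1]
        push_cast
        ring
      · by_cases h2 : y = Q
        · rw [h2, fQ, lQ]
          have cQ : col Q = !b := by rw [← h2]; exact hcy
          have cq : col q = b := by
            have := hcol (!b) q A.hq
            rw [← hQd, cQ] at this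
            revert this; cases b <;> cases col q <;> simp
          have cx : col x = !b := by
            have := hcol b x A.hx
            rw [← hqd, cq] at this
            revert this; cases b <;> cases col x <;> simp
          have l1 := h.lab Q A.hQ
          have l2 := h.lab q A.hq
          have l3 := h.lab x A.hx
          rw [cQ, A.iQ, sQ] at l1
          rw [cq, A.iq, sq] at l2
          rw [cx, ← hPd] at l3
          rw [l3, l2, l1]
          push_cast
          ring
        · obtain ⟨k1, k2⟩ := fo y hyS h1 h2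
          rw [k1, k2, ← hcy]; exact h.lab _ hyS

end

end Vale.Agent.P040.H870
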