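import Vale.Agent.P040.H870.Hex
import Vale.Agent.P040.H568.TripodDef

/-!
# The hexagon inequality with an arbitrary cut (helper870)

`hex_law`: the statement in the form of `H568.TripodDef` (`Law`), by transport to the linear
order obtained by cutting the circle at the leaf `w`.
-/

set_option linter.unusedVariables false
set_option linter.unusedSectionVars false

namespace Vale.Agent.P040.H870

open Vale.Agent.P040.H906 P040H251

variable {W : Type*} [LinearOrder W]

/-- the circle cut open between the points with `wl = true` and those with `wl = false` -/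
def RO (_wl : W → Bool) : Type _ := W

instance roOrder (wl : W → Bool) : LinearOrder (RO wl) :=
  LinearOrder.lift' (fun x : W => toLex (wl x, x)) (fun x y h => by
    have := congrArg (fun p => (ofLex p).2) h
    exact this)

theorem ro_lt (wl : W → Bool) (x y : W) :
    (show RO wl from x) < (show RO wl from y) ↔
      (wl x = false ∧ wl y = true) ∨ (wl x = wl y ∧ x < y) := by
  have h : ((show RO wl from x) < (show RO wl from y)) ↔
      (toLex (wl x, x) : Bool ×ₗ W) < toLex (wl y, y) := Iff.rfl
  rw [h, Prod.Lex.toLex_lt_toLex, Bool.lt_iff]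

/-- the configuration on the rotated order -/
def tr (wl : W → Bool) (c : Cfg W) : Cfg (RO wl) where
  S := c.S
  f := c.f

variable {wl : W → Bool}

theorem cyc_ro (hw : ∀ x y, x ≤ y → wl y = true → wl x = true) (x z y : W) :
    Cyc (W := RO wl) x z y ↔ Cyc x z y := by
  have B : ∀ p q, wl p = true → wl q = false → p < q ∧ ¬ q < p := by
    intro p q h1 h2
    have h : p < q := lt_of_not_ge fun h => by rw [hw q p h h1] at h2; cases h2
    exact ⟨h, not_lt_of_gt h⟩
  have l1 := ro_lt wl x z
  have l2 := ro_lt wl z y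
  have l3 := ro_lt wl y x
  unfold Cyc
  change (((show RO wl from x) < (show RO wl from z) ∧ (show RO wl from z) < (show RO wl from y)) ∨
    ((show RO wl from z) < (show RO wl from y) ∧ (show RO wl from y) < (show RO wl from x)) ∨
    ((show RO wl from y) < (show RO wl from x) ∧ (show RO wl from x) < (show RO wl from z))) ↔ _
  rw [l1, l2, l3]
  cases hx : wl x <;> cases hz : wl z <;> cases hy : wl y
  · simp
  · have b1 := B y x hy hx
    have b2 := B y z hy hz
    simp [b1, b2]
  · have b1 := B z x hz hx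
    have b2 := B z y hz hy
    simp [b1, b2]
  · have b1 := B z x hz hx
    have b2 := B y x hy hx
    simp [b1, b2]
  · have b1 := B x z hx hz
    have b2 := B x y hx hy
    simp [b1, b2]
  · have b1 := B x z hx hz
    have b2 := B y z hy hz
    simp [b1, b2]
  · have b1 := B x y hx hy
    have b2 := B z y hz hy
    simp [b1, b2]
  · simp

section
variable {c : Cfg W} {col : W → Bool}

theorem tr_good (hw : ∀ x y, x ≤ y → wl y = true → wl x = true) (h : c.Good) :
    (tr wl c).Good where
  mem := h.mem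
  inv := h.inv
  ne := h.ne
  nc := by
    intro b x hx y hy h1
    have h2 := h.nc b x hx y hy ((cyc_ro hw _ _ _).1 h1)
    exact (cyc_ro hw _ _ _).2 h2
  conn := h.conn
  nonem := h.nonem

theorem tr_in (hw : ∀ x y, x ≤ y → wl y = true → wl x = true) (f : W → W) (x y : W) :
    In (W := RO wl) f x y ↔ In f x y := by
  unfold In
  exact or_congr Iff.rfl (or_congr Iff.rfl (cyc_ro hw _ _ _))

theorem tr_pd (hw : ∀ x y, x ≤ y → wl y = true → wl x = true) {f : W → W} {T : Finset W}
    (h : PD (W := RO wl) f T) : PD f T := by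
  intro x hx y hy hxy
  obtain ⟨h1, h2⟩ := h x hx y hy hxy
  exact ⟨fun h' => h1 ((tr_in hw f x y).2 h'), fun h' => h2 ((tr_in hw f y x).2 h')⟩

theorem tr_valid (hw : ∀ x y, x ≤ y → wl y = true → wl x = true) {E : W → ℝ} {M : ℝ}
    (h : c.Valid E M) : (tr wl c).Valid E M := by
  intro b T hT hPD
  exact h b T hT (tr_pd hw hPD)

theorem tr_goodE (hw : ∀ x y, x ≤ y → wl y = true → wl x = true) {E : W → ℝ}
    (h : GoodE c E) : GoodE (tr wl c) E := by
  obtain ⟨M, h⟩ := h
  exact ⟨M, tr_valid hw h⟩

theorem tr_leaf (hw : ∀ x y, x ≤ y → wl y = true → wl x = true) {b : Bool} {x : W}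
    (h : c.Leaf b x) : (tr wl c).Leaf b x :=
  ⟨h.1, fun z hz h' => h.2 z hz ((cyc_ro hw _ _ _).1 h')⟩

theorem del_f1 (c : Cfg W) {b b' : Bool} {x y : W} (h0 : b' = b) :
    (c.del b x).f b' y = c.f b' y := by simp [Cfg.del, h0]

theorem del_f2 (c : Cfg W) {b b' : Bool} {x y : W} (h0 : b' ≠ b) (h1 : c.f b' y = x) :
    (c.del b x).f b' y = c.f b' (c.f b x) := by simp [Cfg.del, h0, h1]

theorem del_f3 (c : Cfg W) {b b' : Bool} {x y : W} (h0 : b' ≠ b) (h1 : c.f b' y ≠ x)
    (h2 : c.f b' y = c.f b x) : (c.del b x).f b' y = c.f b' x := by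
  unfold Cfg.del
  show (if b' = b then c.f b' y else
    if c.f b' y = x then c.f b' (c.f b x) else if c.f b' y = c.f b x then c.f b' x
      else c.f b' y) = _
  rw [if_neg h0, if_neg h1, if_pos h2]

theorem del_f4 (c : Cfg W) {b b' : Bool} {x y : W} (h0 : b' ≠ b) (h1 : c.f b' y ≠ x)
    (h2 : c.f b' y ≠ c.f b x) : (c.del b x).f b' y = c.f b' y := by
  unfold Cfg.del
  show (if b' = b then c.f b' y else
    if c.f b' y = x then c.f b' (c.f b x) else if c.f b' y = c.f b x then c.f b' x
      else c.f b' y) = _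
  rw [if_neg h0, if_neg h1, if_neg h2]

theorem tr_del (c : Cfg W) (b : Bool) (x : W) : tr wl (c.del b x) = (tr wl c).del b x := by
  have hS : (tr wl (c.del b x)).S = ((tr wl c).del b x).S := by
    apply Finset.ext
    intro z
    constructor
    · intro h
      have h1 := Cfg.mem_del.1 (show (show W from z) ∈ (c.del b x).S from h)
      exact Cfg.mem_del.2 h1
    · intro h
      have h1 := Cfg.mem_del.1 h
      exact (Cfg.mem_del (c := c)).2 h1
  have hf : (tr wl (c.del b x)).f = ((tr wl c).del b x).f := by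
    funext b' y
    show (c.del b x).f b' y = ((tr wl c).del b x).f b' y
    by_cases h0 : b' = b
    · exact (del_f1 c h0).trans (del_f1 (W := RO wl) (tr wl c) h0).symm
    · by_cases h1 : c.f b' y = x
      · exact (del_f2 c h0 h1).trans (del_f2 (W := RO wl) (tr wl c) h0 h1).symm
      · by_cases h2 : c.f b' y = c.f b x
        · exact (del_f3 c h0 h1 h2).trans (del_f3 (W := RO wl) (tr wl c) h0 h1 h2).symm
        · exact (del_f4 c h0 h1 h2).trans (del_f4 (W := RO wl) (tr wl c) h0 h1 h2).symm
  cases h1 : tr wl (c.del b x)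
  cases h2 : (tr wl c).del b x
  rw [h1, h2] at hS hf
  simp only at hS hf
  rw [hS, hf]

theorem tr_out (hw : ∀ x y, x ≤ y → wl y = true → wl x = true) {E : W → ℝ} {a : W}
    (h : Out E col c a) : Out (W := RO wl) E col (tr wl c) a := by
  induction h with
  | base h1 h2 h3 => exact Out.base h1 h2 h3
  | @step c b x a h1 h2 h3 _ ih =>
    refine Out.step (W := RO wl) (c := tr wl c) (b := b) (x := x) h1 (tr_leaf hw h2) ?_ ?_
    · exact tr_valid hw h3
    · rw [← tr_del]; exact ih

theorem tr_vt (hw : ∀ x y, x ≤ y → wl y = true → wl x = true) {E : W → ℝ} (hg : c.Good)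
    (hcol : ColOK col c) (h : GoodE c E) :
    vt (W := RO wl) col (tr wl c) E = vt col c E := by
  obtain ⟨M, hv⟩ := h
  obtain ⟨a, ha⟩ := exists_out' hg hcol hv
  rw [vt_eq hg hcol ha, vt_eq (tr_good hw hg) (show ColOK (W := RO wl) col (tr wl c) from hcol)
    (tr_out hw ha)]

theorem wn_wr (hw : ∀ x y, x ≤ y → wl y = true → wl x = true) {x y : W} (hxy : x ≠ y) :
    (H568.wn wl x y : ℤ) = wr (W := RO wl) x y := by
  have B : ∀ p q, wl p = true → wl q = false → p < q ∧ ¬ q < p := by
    intro p q h1 h2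
    have h : p < q := lt_of_not_ge fun h => by rw [hw q p h h1] at h2; cases h2
    exact ⟨h, not_lt_of_gt h⟩
  have l1 := ro_lt wl y x
  unfold H568.wn wr
  change _ = if (show RO wl from y) < (show RO wl from x) then (1 : ℤ) else 0
  simp only [l1]
  cases hx : wl x <;> cases hy : wl y
  · rcases lt_or_gt_of_ne hxy with h | h
    · simp [h, not_lt_of_gt h]
    · simp [h, not_lt_of_gt h]
  · have b1 := B y x hy hx
    simp [b1]
  · have b1 := B x y hx hy
    simp [b1]
  · rcases lt_or_gt_of_ne hxy with h | h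
    · simp [h, not_lt_of_gt h]
    · simp [h, not_lt_of_gt h]

variable {E0 : W → ℝ} {M0 : ℝ} {lam : Bool → W → ℕ} {lab : W → ZMod 3}

theorem law_odd (hg : c.Good) (hL : H568.Law c col E0 M0 lam lab wl) :
    ∃ H : ℤ, Odd H ∧ 4 * M0 = H := by
  obtain ⟨x, hx⟩ := hg.nonem
  have hy := hg.mem true x hx
  have hne := hg.ne true x hx
  obtain ⟨n, hn⟩ := hL.par true x hx
  obtain ⟨m, hm⟩ := hL.par true _ hy
  rw [hg.inv true x hx] at hm
  have h1 : c.dl E0 true (c.f true x) = - c.dl E0 true x := Cfg.dl_inv hg hx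
  have h2 := wn_wr (wl := wl) hL.cut hne.symm
  have h3 := wn_wr (wl := wl) hL.cut hne
  have h4 : wr (W := RO wl) x (c.f true x) + wr (W := RO wl) (c.f true x) x = 1 :=
    wr_swap (W := RO wl) hne.symm
  have h5 : (H568.wn wl x (c.f true x) : ℤ) + (H568.wn wl (c.f true x) x : ℤ) = 1 := by
    rw [h2, h3]; exact h4
  have h6 : (H568.wn wl x (c.f true x) : ℝ) + (H568.wn wl (c.f true x) x : ℝ) = 1 := by
    exact_mod_cast h5
  have h7 := hL.sym true x hx
  rw [h1, h7] at hm
  refine ⟨2 * (lam true x + n + m) + 1, ⟨_, rfl⟩, ?_⟩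
  push_cast
  linarith

/-- four times the differences of `E0` are integers -/
theorem law_int (hg : c.Good) (hL : H568.Law c col E0 M0 lam lab wl) {y : W} (hy : y ∈ c.S) :
    ∀ x ∈ c.S, ∃ n : ℤ, 4 * (E0 x - E0 y) = n := by
  classical
  obtain ⟨H, -, hH⟩ := law_odd hg hL
  set A : Finset W := c.S.filter fun x => ∃ n : ℤ, 4 * (E0 x - E0 y) = n with hA
  have hAS : A = c.S := by
    refine hg.conn A (Finset.filter_subset _ _) ⟨y, ?_⟩ ?_
    · rw [hA, Finset.mem_filter]
      exact ⟨hy, 0, by simp⟩
    · intro b z hz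
      rw [hA, Finset.mem_filter] at hz ⊢
      obtain ⟨hz1, k, hk⟩ := hz
      refine ⟨hg.mem b z hz1, ?_⟩
      obtain ⟨n, hn⟩ := hL.par b z hz1
      unfold Cfg.dl at hn
      cases b
      · simp only [sg, Bool.false_eq_true, if_false] at hn
        refine ⟨k + H - 2 * (lam false z + H568.wn wl z (c.f false z) + 2 * n), ?_⟩
        push_cast
        linarith
      · simp only [sg, if_true] at hn
        refine ⟨k - H + 2 * (lam true z + H568.wn wl z (c.f true z) + 2 * n), ?_⟩
        push_cast
        linarith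
  intro x hx
  have : x ∈ A := by rw [hAS]; exact hx
  rw [hA, Finset.mem_filter] at this
  exact this.2

/-- the sum over the points of colour `false` is the sum over the points of colour `true` -/
theorem sum_neg (hg : c.Good) (hcol : ColOK col c) (hs : ∀ b, ∀ x ∈ c.S, lam b (c.f b x) = lam b x)
    (b : Bool) : ∑ x ∈ c.S.filter (fun x => ¬ col x = true), lam b x =
      ∑ x ∈ c.S.filter (fun x => col x = true), lam b x := by
  refine Finset.sum_nbij' (c.f b) (c.f b) ?_ ?_ ?_ ?_ ?_
  · intro x hx
    rw [Finset.mem_filter] at hx ⊢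
    refine ⟨hg.mem b x hx.1, ?_⟩
    rw [hcol b x hx.1]
    have := hx.2
    revert this
    cases col x <;> simp
  · intro x hx
    rw [Finset.mem_filter] at hx ⊢
    refine ⟨hg.mem b x hx.1, ?_⟩
    rw [hcol b x hx.1, hx.2]
    simp
  · intro x hx
    exact hg.inv b x (Finset.mem_filter.1 hx).1
  · intro x hx
    exact hg.inv b x (Finset.mem_filter.1 hx).1
  · intro x hx
    exact (hs b x (Finset.mem_filter.1 hx).1).symm

/-- **The hexagon inequality**, in the form of `H568.TripodDef`: the parity law at the centre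
`E0` (not assumed valid) with marks of total mass at most three and one cut, and six valid phases
which agree with `E0 ± (1/2)` on one arc at the points of colour `true`. -/
theorem hex_law (hg : c.Good) (hcol : ColOK col c) (hL : H568.Law c col E0 M0 lam lab wl)
    (Ep Em : ZMod 3 → W → ℝ) (hp : ∀ i, ∃ M, c.Valid (Ep i) M) (hm : ∀ i, ∃ M, c.Valid (Em i) M)
    (hpe : ∀ i, ∀ x ∈ c.S, col x = true → Ep i x = E0 x + if lab x = i then 1 / 2 else 0)
    (hme : ∀ i, ∀ x ∈ c.S, col x = true → Em i x = E0 x - if lab x = i then 1 / 2 else 0) :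
    ∑ i, (vt col c (Ep i) - vt col c (Em i)) ≤ 1 := by
  classical
  have hw := hL.cut
  obtain ⟨H, hHodd, hH⟩ := law_odd hg hL
  obtain ⟨y0, hy0⟩ := hg.nonem
  set e : W → ℤ := fun x => round (4 * (E0 x - E0 y0)) with he
  have heE : ∀ x ∈ c.S, (e x : ℝ) = 4 * (E0 x - E0 y0) := by
    intro x hx
    obtain ⟨n, hn⟩ := law_int hg hL hy0 x hx
    rw [he]
    show ((round (4 * (E0 x - E0 y0)) : ℤ) : ℝ) = _
    rw [hn, round_intCast]
  have hk : Mk (W := RO wl) (tr wl c) col e H lam lab := by
    refine ⟨hL.sym, ?_, ?_, fun x hx => hL.lab _ x hx rfl⟩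
    · intro b x hx
      have hx' : (show W from x) ∈ c.S := hx
      obtain ⟨n, hn⟩ := hL.par b x hx
      refine ⟨n, ?_⟩
      have h1 := heE x hx
      have h2 := heE _ (hg.mem b x hx)
      have h3 := wn_wr (wl := wl) hw (hg.ne b x hx').symm
      have h4 : (sz b : ℝ) = sg b := by cases b <;> simp [sz, sg]
      have h5 : ((wr (W := RO wl) x (c.f b x) : ℤ) : ℝ) = (H568.wn wl x (c.f b x) : ℝ) := by
        rw [← h3]; push_cast; ring
      have h6 : ((H + sz b * (e (c.f b x) - e x) -
          2 * (wr (W := RO wl) x (c.f b x) + lam b x) : ℤ) : ℝ) = ((4 * n : ℤ) : ℝ) := by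
        push_cast
        rw [h1, h2, h4, h5, ← hH]
        unfold Cfg.dl at hn
        linarith
      exact_mod_cast h6
    · have h1 : ∀ b, ∑ x ∈ c.S, lam b x =
          2 * ∑ x ∈ c.S.filter (fun x => col x = true), lam b x := by
        intro b
        rw [← Finset.sum_filter_add_sum_filter_not c.S (fun x => col x = true) (lam b),
          sum_neg hg hcol hL.sym b]
        ring
      have h2 := hL.tot
      rw [Finset.sum_add_distrib] at h2
      show ∑ x ∈ c.S, (lam true x + lam false x) ≤ 6
      rw [Finset.sum_add_distrib, h1, h1]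
      linarith
  have key := hex_vt (W := RO wl) (c := tr wl c) (col := col) (e := e) (H := H) (lam := lam)
    (lab := lab) (E0 := E0) (κ := 1 / 2) (tr_good hw hg) hcol hHodd hk (by norm_num)
    (by
      intro x hx y hy h1 h2
      rw [heE x hx, heE y hy]
      ring)
    Ep Em (fun i => tr_goodE hw (hp i)) (fun i => tr_goodE hw (hm i)) hpe hme
  have h1 : ∀ i, vt (W := RO wl) col (tr wl c) (Ep i) = vt col c (Ep i) := fun i =>
    tr_vt hw hg hcol (hp i)
  have h2 : ∀ i, vt (W := RO wl) col (tr wl c) (Em i) = vt col c (Em i) := fun i =>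
    tr_vt hw hg hcol (hm i)
  simp only [h1, h2] at key
  linarith

end

end Vale.Agent.P040.H870
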