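import Vale.Agent.P040.H870.Tripod

/-!
# No tripod: the induction (helper870)
-/

set_option linter.unusedVariables false
set_option linter.unusedSectionVars false

namespace Vale.Agent.P040.H870

open Vale.Agent.P040.H906 P040H251

variable {W : Type*} [LinearOrder W]

section
variable {c : Cfg W} {col : W → Bool} {E : W → ℝ} {U : W → Prop}

theorem goodE_del {b : Bool} {x : W} (hg : c.Good) (hc : 2 < c.S.card) (hl : c.Leaf b x)
    (hv : c.Valid E (-(c.dl E b x))) : GoodE (c.del b x) E := ⟨_, valid_dl hg hc hl hv⟩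

theorem goodE_congr {E1 E2 : W → ℝ} (hg : c.Good) (he : ∀ x ∈ c.S, E2 x = E1 x)
    (h : GoodE c E1) : GoodE c E2 := by
  obtain ⟨M, h⟩ := h
  exact ⟨M, valid_congr hg he h⟩

/-- strict deletion: robustness -/
theorem rob_del {b : Bool} {x : W} {δ : ℝ} (hg : c.Good) (hc : 2 < c.S.card) (hl : c.Leaf b x)
    (hδ : 0 < δ)
    (h : ∀ E' : W → ℝ, (∀ y ∈ c.S, |E' y - E y| ≤ δ) → c.Valid E' (-(c.dl E' b x))) :
    Rob (c.del b x) E := by
  classical
  refine ⟨δ, hδ, fun E' hE' => ?_⟩
  have hg' := Cfg.good_del hg hc hl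
  let E2 : W → ℝ := fun y => if y ∈ (c.del b x).S then E' y else E y
  have h1 : ∀ y ∈ c.S, |E2 y - E y| ≤ δ := by
    intro y hy
    by_cases h2 : y ∈ (c.del b x).S
    · simp only [E2, if_pos h2]; exact hE' y h2
    · simp only [E2, if_neg h2, sub_self, abs_zero]; exact hδ.le
  have h3 := goodE_del hg hc hl (h E2 h1)
  refine goodE_congr hg' (fun y hy => ?_) h3
  simp only [E2, if_pos hy]

/-- strict deletion: the hypothesis passes -/
theorem hyp_del {b : Bool} {x : W} {δ : ℝ} (hg : c.Good) (hc : 2 < c.S.card)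
    (hcol : ColOK col c) (hl : c.Leaf b x) (hδ : 0 < δ)
    (h : ∀ E' : W → ℝ, (∀ y ∈ c.S, |E' y - E y| ≤ δ) → c.Valid E' (-(c.dl E' b x)))
    (hU : Hyp c col E U) : Hyp (c.del b x) col E U := by
  obtain ⟨s₀, hs₀, hU⟩ := hU
  refine ⟨min s₀ δ, lt_min hs₀ hδ, fun s h1 h2 => ?_⟩
  have h3 : s ≤ δ := h2.trans (min_le_right _ _)
  rw [vt_step hg hcol hc hl (h E fun y _ => by simpa using hδ.le),
    vt_step hg hcol hc hl (h (bump E U s) fun y _ => (bump_close h1.le y).trans h3)]
  exact hU s h1 (h2.trans (min_le_left _ _))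

/-- changing `E` at one point of colour `false` -/
theorem hyp_shift {ρ t : ℝ} {q : W} (hg : c.Good) (hcol : ColOK col c) (hρ : 0 < ρ)
    (hR : ∀ E' : W → ℝ, (∀ x ∈ c.S, |E' x - E x| ≤ 2 * ρ) → GoodE c E')
    (ht : |t| ≤ ρ) (hq : col q = false) (hU : Hyp c col E U) :
    Hyp c col (fun y => if y = q then E y - t else E y) U := by
  obtain ⟨s₀, hs₀, hU⟩ := hU
  have hcl : ∀ y, |(if y = q then E y - t else E y) - E y| ≤ ρ := by
    intro y
    by_cases h : y = q
    · rw [if_pos h]; simpa using ht
    · rw [if_neg h]; simpa using hρ.le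
  refine ⟨min s₀ ρ, lt_min hs₀ hρ, fun s h1 h2 => ?_⟩
  have h3 : s ≤ ρ := h2.trans (min_le_right _ _)
  have e1 : vt col c (fun y => if y = q then E y - t else E y) = vt col c E := by
    apply vt_locdep (E := E) hg hcol hR
    · intro y _; exact (hcl y).trans (by linarith)
    · intro y _; simp [hρ.le]
    · intro y _ hy
      rw [if_neg]
      rintro rfl; rw [hq] at hy; cases hy
  have e2 : vt col c (bump (fun y => if y = q then E y - t else E y) U s) =
      vt col c (bump E U s) := by
    apply vt_locdep (E := E) hg hcol hR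
    · intro y _
      have k1 := bump_close (E := fun y => if y = q then E y - t else E y) (U := U) h1.le y
      have k2 := hcl y
      have k3 := abs_add_le (bump (fun y => if y = q then E y - t else E y) U s y -
        (if y = q then E y - t else E y)) ((if y = q then E y - t else E y) - E y)
      rw [sub_add_sub_cancel] at k3
      linarith
    · intro y _
      exact (bump_close h1.le y).trans (by linarith)
    · intro y _ hy
      have hyq : y ≠ q := by rintro rfl; rw [hq] at hy; cases hy
      show (if y = q then E y - t else E y) + _ = E y + _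
      rw [if_neg hyq]
  rw [e1, e2]
  exact hU s h1 (h2.trans (min_le_left _ _))

theorem rob_shift {ρ t : ℝ} {q : W} (hρ : 0 < ρ)
    (hR : ∀ E' : W → ℝ, (∀ x ∈ c.S, |E' x - E x| ≤ 2 * ρ) → GoodE c E')
    (ht : |t| ≤ ρ) : Rob c (fun y => if y = q then E y - t else E y) := by
  refine ⟨ρ, hρ, fun E' hE' => hR E' fun y hy => ?_⟩
  have hcl : |(if y = q then E y - t else E y) - E y| ≤ ρ := by
    by_cases h : y = q
    · rw [if_pos h]; simpa using ht
    · rw [if_neg h]; simpa using hρ.le
  have k3 := abs_add_le (E' y - (if y = q then E y - t else E y))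
    ((if y = q then E y - t else E y) - E y)
  rw [sub_add_sub_cancel] at k3
  have := hE' y hy
  linarith

/-! ### the tie -/

theorem ext_leafP {β : Bool} {q : W} {δ : ℝ} (hg : c.Good) (hδ : 0 < δ) (X : Ext c E β q δ)
    (hle : sg β * E (c.f (!β) q) ≤ sg β * E (c.f β q)) (hne : c.f β q ≠ c.f (!β) q) :
    c.Leaf β (c.f β q) := by
  have s2 : sg β * sg β = 1 := sg_sq β
  have sabs : |sg β| = 1 := by cases β <;> simp [sg]
  rcases X.leaf (fun y => if y = c.f β q then E y + sg β * δ else E y) (by
    intro y hy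
    by_cases h : y = c.f β q
    · rw [if_pos h]; simp [abs_mul, sabs, abs_of_pos hδ]
    · rw [if_neg h]; simp [hδ.le]) with h | h
  · exact h.1
  · exfalso
    have h1 := h.2
    rw [if_pos rfl, if_neg hne.symm, mul_add, ← mul_assoc, s2, one_mul] at h1
    linarith

theorem ext_leafQ {β : Bool} {q : W} {δ : ℝ} (hg : c.Good) (hδ : 0 < δ) (X : Ext c E β q δ)
    (hle : sg β * E (c.f β q) ≤ sg β * E (c.f (!β) q)) (hne : c.f β q ≠ c.f (!β) q) :
    c.Leaf (!β) q := by
  have s2 : sg β * sg β = 1 := sg_sq β
  have sabs : |sg β| = 1 := by cases β <;> simp [sg]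
  rcases X.leaf (fun y => if y = c.f (!β) q then E y + sg β * δ else E y) (by
    intro y hy
    by_cases h : y = c.f (!β) q
    · rw [if_pos h]; simp [abs_mul, sabs, abs_of_pos hδ]
    · rw [if_neg h]; simp [hδ.le]) with h | h
  · exfalso
    have h1 := h.2
    rw [if_pos rfl, if_neg hne, mul_add, ← mul_assoc, s2, one_mul] at h1
    linarith
  · exact h.1

theorem ext_valP {β : Bool} {q : W} {δ : ℝ} (hg : c.Good) (X : Ext c E β q δ) {E' : W → ℝ}
    (hE' : ∀ y ∈ c.S, |E' y - E y| ≤ δ)
    (hle : sg β * E' (c.f (!β) q) ≤ sg β * E' (c.f β q)) :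
    c.Valid E' (-(c.dl E' β (c.f β q))) := by
  have h := X.val E' hE'
  have e1 : -(c.dl E' β (c.f β q)) = sg β * (E' (c.f β q) - E' q) := by
    unfold Cfg.dl; rw [hg.inv β q X.hq]; ring
  rw [e1]
  rwa [max_eq_left (by linarith)] at h

theorem ext_valQ {β : Bool} {q : W} {δ : ℝ} (hg : c.Good) (X : Ext c E β q δ) {E' : W → ℝ}
    (hE' : ∀ y ∈ c.S, |E' y - E y| ≤ δ)
    (hle : sg β * E' (c.f β q) ≤ sg β * E' (c.f (!β) q)) :
    c.Valid E' (-(c.dl E' (!β) q)) := by
  have h := X.val E' hE'
  have e1 : -(c.dl E' (!β) q) = sg β * (E' (c.f (!β) q) - E' q) := by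
    unfold Cfg.dl; rw [sg_not]; ring
  rw [e1]
  rwa [max_eq_right (by linarith)] at h

/-- robustness after the deletion of the right leaf of a tie -/
theorem rob_tie {β : Bool} {q : W} {δ : ℝ} (hg : c.Good) (hc : 2 < c.S.card) (hδ : 0 < δ)
    (X : Ext c E β q δ) (htie : E (c.f β q) = E (c.f (!β) q)) (hl : c.Leaf (!β) q) :
    Rob (c.del (!β) q) E := by
  classical
  refine ⟨δ, hδ, fun E' hE' => ?_⟩
  have hg' := Cfg.good_del hg hc hl
  have A := around hg hc hl
  have hp : c.f β q ∈ (c.del (!β) q).S := by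
    have h1 := A.Pq
    have h2 := A.Px
    have h3 := A.hP
    rw [Bool.not_not] at h1 h2 h3
    exact Cfg.mem_del.2 ⟨h1, h2, h3⟩
  let E2 : W → ℝ := fun y => if y = c.f (!β) q then E' (c.f β q) else
    if y = q then E q else E' y
  have h0 : ∀ y ∈ (c.del (!β) q).S, E2 y = E' y := by
    intro y hy
    obtain ⟨h1, h2, h3⟩ := Cfg.mem_del.1 hy
    simp only [E2, if_neg h1, if_neg h2]
  have h1 : ∀ y ∈ c.S, |E2 y - E y| ≤ δ := by
    intro y hy
    by_cases h2 : y = c.f (!β) q
    · simp only [E2, if_pos h2]
      rw [h2, ← htie]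
      exact hE' _ hp
    · by_cases h3 : y = q
      · simp only [E2, if_neg h2, if_pos h3]
        rw [h3]; simpa using hδ.le
      · have h4 : y ∈ (c.del (!β) q).S := Cfg.mem_del.2 ⟨h2, h3, hy⟩
        rw [h0 y h4]; exact hE' y h4
  have hv := ext_valQ hg X h1 (by
    rw [h0 _ hp]
    simp only [E2, if_pos rfl]
    exact le_rfl)
  exact goodE_congr hg' (fun y hy => (h0 y hy).symm) (goodE_del hg hc hl hv)

/-- a tie: the value does not change when the right leaf is deleted -/
theorem vt_tie {β : Bool} {q : W} {δ : ℝ} (hg : c.Good) (hc : 2 < c.S.card)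
    (hcol : ColOK col c) (X : Ext c E β q δ) (hl : c.Leaf (!β) q) {E' : W → ℝ}
    (hE' : ∀ y ∈ c.S, |E' y - E y| ≤ δ)
    (hle : sg β * E' (c.f β q) ≤ sg β * E' (c.f (!β) q)) :
    vt col (c.del (!β) q) E' = vt col c E' :=
  vt_step hg hcol hc hl (ext_valQ hg X hE' hle)

/-- min gate: keep the left point with its own label -/
theorem hyp_min {q : W} {δ : ℝ} (hg : c.Good) (hc : 2 < c.S.card) (hcol : ColOK col c)
    (hδ : 0 < δ) (X : Ext c E true q δ) (htie : E (c.f true q) = E (c.f false q))
    (hl1 : c.Leaf true (c.f true q)) (hl2 : c.Leaf false q) (hU : Hyp c col E U) :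
    Hyp (c.del false q) col E U := by
  classical
  obtain ⟨s₀, hs₀, hU⟩ := hU
  have A := around hg hc hl2
  have hp : c.f true q ∈ c.S := hg.mem true q X.hq
  have hpp' : c.f true q ≠ c.f false q := A.Pq
  have hpq : c.f true q ≠ q := A.Px
  have hpd : c.f true q ∈ (c.del false q).S := Cfg.mem_del.2 ⟨hpp', hpq, hp⟩
  have s1 : sg true = 1 := rfl
  have hrob := rob_tie (β := true) hg hc hδ X htie hl2
  obtain ⟨ρ, hρ, hR⟩ := hrob
  have hg' := Cfg.good_del hg hc hl2
  have hcol' := hcol.del hg false hl2.1
  refine ⟨min s₀ (min δ ρ), lt_min hs₀ (lt_min hδ hρ), fun s h1 h2 => ?_⟩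
  have h3 : s ≤ δ := h2.trans ((min_le_right _ _).trans (min_le_left _ _))
  have h3' : s ≤ ρ := h2.trans ((min_le_right _ _).trans (min_le_right _ _))
  have h4 := hU s h1 (h2.trans (min_le_left _ _))
  have hcl : ∀ V : W → Prop, ∀ y ∈ c.S, |bump E V s y - E y| ≤ δ := fun V y _ =>
    (bump_close h1.le y).trans h3
  have e0 : vt col (c.del false q) E = vt col c E :=
    vt_tie (β := true) hg hc hcol X hl2 (fun y _ => by simpa using hδ.le) (by
      rw [s1, one_mul, one_mul]; exact htie.le)
  rw [e0]
  refine h4.trans ?_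
  by_cases hup : U (c.f true q) ∧ ¬ U (c.f false q)
  · -- lower `p`
    let V : W → Prop := fun y => U y ∧ y ≠ c.f true q
    have hVp : ¬ V (c.f true q) := fun h => h.2 rfl
    have hVp' : ¬ V (c.f false q) := fun h => hup.2 h.1
    have f1 : vt col (c.del true (c.f true q)) (bump E U s) = vt col c (bump E U s) := by
      apply vt_step hg hcol hc hl1
      apply ext_valP hg X (hcl U)
      show sg true * bump E U s (c.f false q) ≤ sg true * bump E U s (c.f true q)
      rw [bump_of hup.1, bump_not hup.2, s1, one_mul, one_mul, htie]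
      linarith
    have f2 : vt col (c.del true (c.f true q)) (bump E V s) = vt col c (bump E V s) := by
      apply vt_step hg hcol hc hl1
      apply ext_valP hg X (hcl V)
      show sg true * bump E V s (c.f false q) ≤ sg true * bump E V s (c.f true q)
      rw [bump_not hVp, bump_not hVp', s1, one_mul, one_mul, htie]
    have f3 : vt col (c.del true (c.f true q)) (bump E U s) =
        vt col (c.del true (c.f true q)) (bump E V s) := by
      apply vt_congr' (Cfg.good_del hg hc hl1) (hcol.del hg true hl1.1)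
      · apply goodE_del hg hc hl1
        apply ext_valP hg X (hcl V)
        show sg true * bump E V s (c.f false q) ≤ sg true * bump E V s (c.f true q)
        rw [bump_not hVp, bump_not hVp', s1, one_mul, one_mul, htie]
      · intro y hy
        have hyp : y ≠ c.f true q := (Cfg.mem_del.1 hy).2.1
        by_cases hUy : U y
        · rw [bump_of hUy, bump_of (show V y from ⟨hUy, hyp⟩)]
        · rw [bump_not hUy, bump_not (fun h : V y => hUy h.1)]
    have f4 : vt col (c.del false q) (bump E V s) = vt col c (bump E V s) :=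
      vt_tie (β := true) hg hc hcol X hl2 (hcl V) (by
        show sg true * bump E V s (c.f true q) ≤ sg true * bump E V s (c.f false q)
        rw [bump_not hVp, bump_not hVp', s1, one_mul, one_mul, htie])
    rw [← f1, f3, f2, ← f4]
    exact vt_mono' hg' hcol' (hR _ fun y _ => (bump_close h1.le y).trans h3')
      (hR _ fun y _ => (bump_close h1.le y).trans h3')
      fun y _ => bump_mono h1.le fun h => h.1
  · -- the right leaf is a legal step
    have f1 : vt col (c.del false q) (bump E U s) = vt col c (bump E U s) :=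
      vt_tie (β := true) hg hc hcol X hl2 (hcl U) (by
        show sg true * bump E U s (c.f true q) ≤ sg true * bump E U s (c.f false q)
        rw [s1, one_mul, one_mul]
        by_cases h5 : U (c.f true q)
        · have h6 : U (c.f false q) := by
            by_contra h7; exact hup ⟨h5, h7⟩
          rw [bump_of h5, bump_of h6, htie]
        · rw [bump_not h5, htie]
          by_cases h6 : U (c.f false q)
          · rw [bump_of h6]; linarith
          · rw [bump_not h6])
    rw [f1]

/-- max gate: the left point takes both labels -/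
theorem hyp_max {q : W} {δ : ℝ} {V : W → Prop} (hg : c.Good) (hc : 2 < c.S.card)
    (hcol : ColOK col c) (hδ : 0 < δ) (hR : Rob c E) (X : Ext c E false q δ)
    (htie : E (c.f false q) = E (c.f true q)) (hl2 : c.Leaf true q) (hU : Hyp c col E U)
    (h1 : ∀ y ∈ c.S, y ≠ q → y ≠ c.f true q → U y → V y)
    (h2 : U (c.f true q) → V (c.f false q)) (hUq : ¬ U q) :
    Hyp (c.del true q) col E V := by
  classical
  have A := around hg hc hl2
  have hp : c.f false q ∈ c.S := hg.mem false q X.hq
  have hpp' : c.f false q ≠ c.f true q := A.Pq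
  have hpq : c.f false q ≠ q := A.Px
  -- same label at both points
  let U2 : W → Prop := fun y => (y = c.f true q ∧ V (c.f false q)) ∨ (y ≠ c.f true q ∧ V y)
  have hU2 : Hyp c col E U2 := by
    refine hU.mono hg hcol hR fun y hy hUy => ?_
    by_cases h3 : y = c.f true q
    · left; refine ⟨h3, h2 ?_⟩; rw [← h3]; exact hUy
    · right; refine ⟨h3, h1 y hy ?_ h3 hUy⟩
      rintro rfl; exact hUq hUy
  obtain ⟨s₀, hs₀, hU2⟩ := hU2
  have hrob := rob_tie (β := false) hg hc hδ X htie hl2
  obtain ⟨ρ, hρ, hR'⟩ := hrob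
  have hg' := Cfg.good_del hg hc hl2
  have hcol' := hcol.del hg true hl2.1
  have s1 : sg false = -1 := rfl
  refine ⟨min s₀ (min δ ρ), lt_min hs₀ (lt_min hδ hρ), fun s k1 k2 => ?_⟩
  have h3 : s ≤ δ := k2.trans ((min_le_right _ _).trans (min_le_left _ _))
  have h3' : s ≤ ρ := k2.trans ((min_le_right _ _).trans (min_le_right _ _))
  have h4 := hU2 s k1 (k2.trans (min_le_left _ _))
  have e0 : vt col (c.del true q) E = vt col c E :=
    vt_tie (β := false) hg hc hcol X hl2 (fun y _ => by simpa using hδ.le) (by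
      show sg false * E (c.f false q) ≤ sg false * E (c.f true q)
      rw [htie])
  have e1 : vt col (c.del true q) (bump E U2 s) = vt col c (bump E U2 s) :=
    vt_tie (β := false) hg hc hcol X hl2 (fun y _ => (bump_close k1.le y).trans h3) (by
      show sg false * bump E U2 s (c.f false q) ≤ sg false * bump E U2 s (c.f true q)
      have e2 : bump E U2 s (c.f false q) = bump E U2 s (c.f true q) := by
        by_cases h5 : V (c.f false q)
        · rw [bump_of (show U2 (c.f false q) from Or.inr ⟨hpp', h5⟩),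
            bump_of (show U2 (c.f true q) from Or.inl ⟨rfl, h5⟩), htie]
        · rw [bump_not (show ¬ U2 (c.f false q) from fun h => by
              rcases h with h | h
              · exact hpp' h.1
              · exact h5 h.2),
            bump_not (show ¬ U2 (c.f true q) from fun h => by
              rcases h with h | h
              · exact h5 h.2
              · exact h.1 rfl), htie]
      rw [e2])
  rw [e0]
  refine h4.trans ?_
  rw [← e1]
  refine vt_mono' hg' hcol' (hR' _ fun y _ => (bump_close k1.le y).trans h3')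
      (hR' _ fun y _ => (bump_close k1.le y).trans h3')
      fun y hy => bump_mono k1.le fun h => ?_
  rcases h with h | h
  · exact absurd h.1 (Cfg.mem_del.1 hy).1
  · exact h.2

end

end Vale.Agent.P040.H870
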