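import Vale.Agent.P040.H870.Marks

/-!
# Making the minimal leaves at one point strictly minimal (helper870)
-/

set_option linter.unusedVariables false
set_option linter.unusedSectionVars false

namespace Vale.Agent.P040.H870

open Vale.Agent.P040.H906 P040H251

variable {W : Type*} [LinearOrder W]

/-- In a whole neighbourhood of `E` the minimal leaves are among `f β q → q` (page `β`) and
`q → f (!β) q` (page `!β`). -/
structure Ext (c : Cfg W) (E : W → ℝ) (β : Bool) (q : W) (δ : ℝ) : Prop where
  hq : q ∈ c.S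
  val : ∀ E' : W → ℝ, (∀ y ∈ c.S, |E' y - E y| ≤ δ) →
    c.Valid E' (max (sg β * (E' (c.f β q) - E' q)) (sg β * (E' (c.f (!β) q) - E' q)))
  leaf : ∀ E' : W → ℝ, (∀ y ∈ c.S, |E' y - E y| ≤ δ) →
    (c.Leaf β (c.f β q) ∧ sg β * E' (c.f (!β) q) ≤ sg β * E' (c.f β q)) ∨
    (c.Leaf (!β) q ∧ sg β * E' (c.f β q) ≤ sg β * E' (c.f (!β) q))

theorem sg_abs (b : Bool) (t : ℝ) : |sg b * t| = |t| := by
  cases b <;> simp [sg]

theorem dl_abs (c : Cfg W) (E : W → ℝ) (b : Bool) (x : W) :
    |c.dl E b x| = |E (c.f b x) - E x| := by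
  unfold Cfg.dl; exact sg_abs _ _

/-- main perturbation lemma -/
theorem ext_of_extremal {c : Cfg W} {E : W → ℝ} {β : Bool} {q : W} {M ε ρ : ℝ} (hg : c.Good)
    (hq : q ∈ c.S) (hε : 0 < ε) (hρ : 0 < ρ) (hερ : ε ≤ ρ)
    (hR : ∀ E' : W → ℝ, (∀ x ∈ c.S, |E' x - E x| ≤ 2 * ρ) → GoodE c E')
    (hM : ∀ b, ∀ y ∈ c.S, |c.dl E b y| ≤ M)
    (hex : sg β * (E (c.f β q) - E q) = M ∨ sg β * (E (c.f (!β) q) - E q) = M) :
    Ext c (fun y => if y = q then E y - sg β * ε else E y) β q (ε / 8) := by
  have hM0 : 0 ≤ M := (abs_nonneg _).trans (hM true q hq)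
  have hp := hg.mem β q hq
  have hp' := hg.mem (!β) q hq
  have hpq := hg.ne β q hq
  have hpq' := hg.ne (!β) q hq
  have s2 : sg β * sg β = 1 := sg_sq β
  have sabs : |sg β| = 1 := by cases β <;> simp [sg]
  -- consequences of closeness
  have key : ∀ E' : W → ℝ, (∀ y ∈ c.S, |E' y - (if y = q then E y - sg β * ε else E y)| ≤ ε / 8) →
      (∀ x ∈ c.S, |E' x - E x| ≤ 2 * ρ) ∧
      (∀ b, ∀ y ∈ c.S, y ≠ q → c.f b y ≠ q → |c.dl E' b y| ≤ M + ε / 4) ∧
      (∀ b, -(M - 3 / 4 * ε) ≤ sg β * (E' (c.f b q) - E' q)) ∧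
      (M + 3 / 4 * ε ≤ max (sg β * (E' (c.f β q) - E' q)) (sg β * (E' (c.f (!β) q) - E' q))) := by
    intro E' hE'
    have h1 : ∀ y ∈ c.S, y ≠ q → |E' y - E y| ≤ ε / 8 := by
      intro y hy hyq
      have := hE' y hy
      rwa [if_neg hyq] at this
    have h2 : |E' q - (E q - sg β * ε)| ≤ ε / 8 := by
      have := hE' q hq
      rwa [if_pos rfl] at this
    have h2' := abs_le.1 h2
    have hqq : ∀ r ∈ c.S, r ≠ q → ∀ t, sg β * (E r - E q) = t →
        t + 3 / 4 * ε ≤ sg β * (E' r - E' q) := by
      intro r hr hrq t ht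
      have h3 := abs_le.1 (h1 r hr hrq)
      rw [← ht]
      cases β
      · simp only [sg, Bool.false_eq_true, if_false] at h2' ⊢
        linarith [h3.1, h3.2, h2'.1, h2'.2]
      · simp only [sg, if_true] at h2' ⊢
        linarith [h3.1, h3.2, h2'.1, h2'.2]
    refine ⟨?_, ?_, ?_, ?_⟩
    · intro x hx
      by_cases hxq : x = q
      · subst hxq
        rw [abs_le]
        have h4 : |sg β * ε| = ε := by rw [abs_mul, sabs, abs_of_pos hε, one_mul]
        have h5 := abs_le.1 h4.le
        constructor <;> linarith [h2'.1, h2'.2, h5.1, h5.2]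
      · have := h1 x hx hxq
        linarith
    · intro b y hy hyq hfq
      rw [dl_abs]
      have h3 := hM b y hy
      rw [dl_abs] at h3
      have h4 := abs_le.1 (h1 y hy hyq)
      have h5 := abs_le.1 (h1 _ (hg.mem b y hy) hfq)
      have h3' := abs_le.1 h3
      rw [abs_le]
      constructor <;> linarith [h3'.1, h3'.2, h4.1, h4.2, h5.1, h5.2]
    · intro b
      have h3 := hqq _ (hg.mem b q hq) (hg.ne b q hq) _ rfl
      have h4 := hM b q hq
      rw [dl_abs, ← sg_abs β] at h4
      have h5 := (abs_le.1 h4).1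
      linarith
    · rcases hex with h | h
      · exact (hqq _ hp hpq _ h).trans (le_max_left _ _)
      · exact (hqq _ hp' hpq' _ h).trans (le_max_right _ _)
  have hle : ∀ E' : W → ℝ,
      (∀ y ∈ c.S, |E' y - (if y = q then E y - sg β * ε else E y)| ≤ ε / 8) →
      ∀ b, ∀ y ∈ c.S, c.dl E' b y ≤
        max (sg β * (E' (c.f β q) - E' q)) (sg β * (E' (c.f (!β) q) - E' q)) := by
    intro E' hE' b y hy
    obtain ⟨k1, k2, k3, k4⟩ := key E' hE'
    have kq : ∀ b, |sg β * (E' (c.f b q) - E' q)| ≤
        max (sg β * (E' (c.f β q) - E' q)) (sg β * (E' (c.f (!β) q) - E' q)) := by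
      intro b
      rw [abs_le]
      constructor
      · have := k3 b
        linarith
      · rcases Cfg.bool_cases β b with rfl | rfl
        · exact le_max_left _ _
        · exact le_max_right _ _
    by_cases hyq : y = q
    · subst hyq
      have := kq b
      rw [sg_abs, ← dl_abs] at this
      exact (le_abs_self _).trans this
    · by_cases hfq : c.f b y = q
      · have := kq b
        rw [sg_abs, ← hfq, hg.inv b y hy, abs_sub_comm, ← dl_abs] at this
        rw [hfq] at this
        exact (le_abs_self _).trans this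
      · have h1 := k2 b y hy hyq hfq
        have h2 := le_abs_self (c.dl E' b y)
        linarith
  refine ⟨hq, ?_, ?_⟩
  · intro E' hE'
    obtain ⟨k1, k2, k3, k4⟩ := key E' hE'
    obtain ⟨M', hM'⟩ := hR E' k1
    refine valid_erode hg hM' ?_ (hle E' hE')
    apply max_le
    · have h1 := hM'.ge hg hp (b := β)
      unfold Cfg.dl at h1
      rw [hg.inv β q hq] at h1
      linarith
    · have h1 := hM'.ge hg hp' (b := !β)
      have h2 := hM'.le hp' (b := !β)
      unfold Cfg.dl at h1 h2
      rw [hg.inv (!β) q hq, sg_not] at h1 h2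
      linarith
  · intro E' hE'
    obtain ⟨k1, k2, k3, k4⟩ := key E' hE'
    obtain ⟨M', hM'⟩ := hR E' k1
    obtain ⟨b, x, hl, hv⟩ := Cfg.exists_leaf hg hM'
    have hx := hl.1
    set m := max (sg β * (E' (c.f β q) - E' q)) (sg β * (E' (c.f (!β) q) - E' q)) with hm
    have h1 : -(c.dl E' b x) ≤ m := by
      have := hle E' hE' b _ (hg.mem b x hx)
      rwa [Cfg.dl_inv hg hx] at this
    have h2 : m ≤ -(c.dl E' b x) := by
      apply max_le
      · have h3 := hv.ge hg hp (b := β)
        have h4 : c.dl E' β (c.f β q) = - (sg β * (E' (c.f β q) - E' q)) := by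
          unfold Cfg.dl; rw [hg.inv β q hq]; ring
        rw [h4] at h3
        linarith
      · have h3 := hv.le hp' (b := !β)
        have h4 : c.dl E' (!β) (c.f (!β) q) = sg β * (E' (c.f (!β) q) - E' q) := by
          unfold Cfg.dl; rw [hg.inv (!β) q hq, sg_not]; ring
        rw [h4] at h3
        exact h3
    have h3 : -(c.dl E' b x) = m := le_antisymm h1 h2
    by_cases hxq : x = q
    · rcases Cfg.bool_cases β b with h4 | h4
      · exfalso
        have h5 : -(sg β * (E' (c.f β q) - E' q)) = m := by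
          rw [← h3, h4, hxq]; rfl
        have := k3 β
        linarith
      · right
        rw [hxq, h4] at hl h3
        refine ⟨hl, ?_⟩
        have h5 : sg β * (E' (c.f (!β) q) - E' q) = m := by
          rw [← h3]; unfold Cfg.dl; rw [sg_not]; ring
        have h6 : sg β * (E' (c.f β q) - E' q) ≤ m := le_max_left _ _
        rw [← h5] at h6
        linarith
    · by_cases hfq : c.f b x = q
      · have hxf : x = c.f b q := by rw [← hfq, hg.inv b x hx]
        rcases Cfg.bool_cases β b with h4 | h4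
        · left
          rw [hxf, h4] at hl
          refine ⟨hl, ?_⟩
          have h5 : sg β * (E' (c.f β q) - E' q) = m := by
            rw [← h3, hxf, h4]; unfold Cfg.dl; rw [hg.inv β q hq]; ring
          have h6 : sg β * (E' (c.f (!β) q) - E' q) ≤ m := le_max_right _ _
          rw [← h5] at h6
          linarith
        · exfalso
          have h5 : -(sg β * (E' (c.f (!β) q) - E' q)) = m := by
            rw [← h3, hxf, h4]; unfold Cfg.dl; rw [hg.inv (!β) q hq, sg_not]; ring
          have := k3 (!β)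
          linarith
      · exfalso
        have h4 := k2 b x hx hxq hfq
        have h5 := neg_le_abs (c.dl E' b x)
        linarith

/-- At a robust potential one may change the value at one point of colour `false` a little, so
that near the new potential only the leaves at that point are minimal. -/
theorem exists_ext {c : Cfg W} {col : W → Bool} {E : W → ℝ} {ρ : ℝ} (hg : c.Good)
    (hcol : ColOK col c) (hρ : 0 < ρ)
    (hR : ∀ E' : W → ℝ, (∀ x ∈ c.S, |E' x - E x| ≤ 2 * ρ) → GoodE c E') :
    ∃ (β : Bool) (q : W), col q = false ∧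
      Ext c (fun y => if y = q then E y - sg β * ρ else E y) β q (ρ / 8) := by
  obtain ⟨M', hM'⟩ := hR E fun x _ => by simp [hρ.le]
  obtain ⟨b, x, hl, hv⟩ := Cfg.exists_leaf hg hM'
  have hx := hl.1
  have hM : ∀ b', ∀ y ∈ c.S, |c.dl E b' y| ≤ -(c.dl E b x) := by
    intro b' y hy
    rw [abs_le]
    exact ⟨hv.ge hg hy, hv.le hy⟩
  rcases hcx : col x with _ | _
  · refine ⟨!b, x, hcx, ext_of_extremal hg hx hρ hρ le_rfl hR hM (Or.inr ?_)⟩
    unfold Cfg.dl
    rw [Bool.not_not, sg_not]; ring
  · refine ⟨b, c.f b x, by rw [hcol b x hx, hcx]; rfl,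
      ext_of_extremal hg (hg.mem b x hx) hρ hρ le_rfl hR hM (Or.inl ?_)⟩
    unfold Cfg.dl
    rw [hg.inv b x hx]; ring

end Vale.Agent.P040.H870
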