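import Vale.Agent.P040.H870.TriOr

/-!
# The hexagon inequality for the coloured selector (helper870)
-/

set_option linter.unusedVariables false
set_option linter.unusedSectionVars false

namespace Vale.Agent.P040.H870

open Vale.Agent.P040.H906 P040H251

variable {W : Type*} [LinearOrder W]

section
variable {c : Cfg W} {col : W → Bool} {e : W → ℤ} {H : ℤ} {lam : Bool → W → ℕ}
  {lab : W → ZMod 3}

/-- the parity of `e` follows the colour -/
theorem Mk.even (hg : c.Good) (hcol : ColOK col c) (hH : Odd H) (hk : Mk c col e H lam lab)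
    {x y : W} (hx : x ∈ c.S) (hy : y ∈ c.S) : Even (e x - e y) ↔ col x = col y := by
  classical
  set A : Finset W := c.S.filter fun x => (Even (e x - e y) ↔ col x = col y) with hA
  have hAS : A = c.S := by
    refine hg.conn A (Finset.filter_subset _ _) ⟨y, ?_⟩ ?_
    · rw [hA, Finset.mem_filter]
      exact ⟨hy, by simp⟩
    · intro b z hz
      rw [hA, Finset.mem_filter] at hz ⊢
      obtain ⟨hz1, hz2⟩ := hz
      refine ⟨hg.mem b z hz1, ?_⟩
      rw [hcol b z hz1]
      have h1 := hk.par b z hz1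
      have h2 : Odd (e (c.f b z) - e z) := by
        obtain ⟨k, hk1⟩ := h1
        obtain ⟨l, hl⟩ := hH
        cases b
        · simp only [sz, Bool.false_eq_true, if_false] at hk1
          exact ⟨l - 2 * k - (wr z (c.f false z) + lam false z), by linarith⟩
        · simp only [sz, if_true] at hk1
          exact ⟨2 * k + (wr z (c.f true z) + lam true z) - l - 1, by linarith⟩
      have h3 : Even (e (c.f b z) - e y) ↔ ¬ Even (e z - e y) := by
        have : e (c.f b z) - e y = (e (c.f b z) - e z) + (e z - e y) := by ring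
        have h2' : ¬ Even (e (c.f b z) - e z) := Int.not_even_iff_odd.2 h2
        rw [this, Int.even_add]
        tauto
      rw [h3, hz2]
      cases col z <;> cases col y <;> simp
  have : x ∈ A := by rw [hAS]; exact hx
  rw [hA, Finset.mem_filter] at this
  exact this.2

/-- **no OR tripod** for three valid phases whose values at the points of colour `true` are those
of `E0` raised by `κ` on one arc. -/
theorem tripod_or {E0 : W → ℝ} {κ v0 : ℝ} (hg : c.Good) (hcol : ColOK col c) (hH : Odd H)
    (hk : Mk c col e H lam lab) (hκ : 0 < κ)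
    (hE : ∀ x ∈ c.S, ∀ y ∈ c.S, col x = true → col y = true →
      E0 x - E0 y = κ / 2 * (e x - e y))
    (F : ZMod 3 → W → ℝ) (hF : ∀ i, GoodE c (F i))
    (hFE : ∀ i, ∀ x ∈ c.S, col x = true → F i x = E0 x + if lab x = i then κ else 0)
    (h0 : vt col c (Phi F κ fun _ => 0) ≤ v0) (hor : ∀ i, v0 + κ ≤ vt col c (F i)) : False := by
  obtain ⟨E, hR, hcl, hU⟩ := exists_rob_or hg hcol hκ F hF hFE hor h0 (κ / 8) (by positivity)
  refine no_tripod _ c rfl hg col E e H lam lab (fun _ => {(0, 0)}) hcol hR hH hk ?_ ?_ ?_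
  · intro p hp hcp
    simp
  · intro p hp p' hp' h1 h2 h3
    by_contra hne
    have h4 := abs_le.1 (hcl p hp h1)
    have h5 := abs_le.1 (hcl p' hp' h2)
    have h6 := hE p hp p' hp' h1 h2
    have h7 : (1 : ℤ) ≤ |e p - e p'| := Int.one_le_abs (sub_ne_zero.2 hne)
    have h8 : (1 : ℝ) ≤ |(e p : ℝ) - e p'| := by exact_mod_cast h7
    have h9 : |E0 p - E0 p'| ≤ κ / 4 := by
      rw [abs_le]; constructor <;> linarith [h4.1, h4.2, h5.1, h5.2]
    rw [h6, abs_mul, abs_of_pos (by positivity : (0 : ℝ) < κ / 2)] at h9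
    nlinarith
  · intro i
    refine Hyp.mono hg hcol hR ?_ (hU i)
    rintro y hy ⟨h1, h2⟩
    exact ⟨h1, (0, 0), by simp, by simpa using h2⟩

/-! ### exchange of the pages -/

theorem Mk.flip (hg : c.Good) (hcol : ColOK col c) (hk : Mk c col e H lam lab) :
    Mk (flipc c) col (fun x => - e x) H (fun b => lam (!b)) (fun x => - lab x) where
  sym := fun b x hx => hk.sym (!b) x hx
  par := by
    intro b x hx
    have h := hk.par (!b) x hx
    rw [sz_not] at h
    have e1 : H + sz b * ((fun x => - e x) ((flipc c).f b x) - (fun x => - e x) x) -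
        2 * (wr x ((flipc c).f b x) + ((fun b => lam (!b)) b x : ℕ)) =
        H + -sz b * (e (c.f (!b) x) - e x) - 2 * (wr x (c.f (!b) x) + (lam (!b) x : ℕ)) := by
      show H + sz b * (- e (c.f (!b) x) - - e x) - 2 * (wr x (c.f (!b) x) + (lam (!b) x : ℕ)) = _
      ring
    rw [e1]; exact h
  tot := by
    have e1 : ∑ x ∈ (flipc c).S, ((fun b => lam (!b)) true x + (fun b => lam (!b)) false x) =
        ∑ x ∈ c.S, (lam true x + lam false x) := by
      refine Finset.sum_congr rfl fun x _ => ?_
      show lam false x + lam true x = _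
      ring
    rw [e1]; exact hk.tot
  lab := by
    intro x hx
    show - lab (c.f (!col x) x) = - lab x + ((lam (!col x) x : ℕ) : ZMod 3)
    have hy := hg.mem (!col x) x hx
    have h1 := hk.lab _ hy
    rw [hcol (!col x) x hx, hg.inv (!col x) x hx, hk.sym (!col x) x hx] at h1
    rw [h1]; ring

/-- **The hexagon inequality.**  Six valid phases whose values at the points of colour `true` are
those of `E0` raised or lowered by `κ` on one of the three arcs. -/
theorem hex_vt {E0 : W → ℝ} {κ : ℝ} (hg : c.Good) (hcol : ColOK col c) (hH : Odd H)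
    (hk : Mk c col e H lam lab) (hκ : 0 < κ)
    (hE : ∀ x ∈ c.S, ∀ y ∈ c.S, col x = true → col y = true →
      E0 x - E0 y = κ / 2 * (e x - e y))
    (Ep Em : ZMod 3 → W → ℝ) (hp : ∀ i, GoodE c (Ep i)) (hm : ∀ i, GoodE c (Em i))
    (hpE : ∀ i, ∀ x ∈ c.S, col x = true → Ep i x = E0 x + if lab x = i then κ else 0)
    (hmE : ∀ i, ∀ x ∈ c.S, col x = true → Em i x = E0 x - if lab x = i then κ else 0) :
    ∑ i, (vt col c (Ep i) - vt col c (Em i)) ≤ 2 * κ := by
  have h6 : ∀ i : ZMod 3, |(fun _ => (0 : ℝ)) i| ≤ κ / 6 := by intro i; simp; positivity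
  have hcen : GoodE c (Phi Ep κ fun _ => 0) := phi_good hκ hp h6
  have hcenE : ∀ x ∈ c.S, col x = true → Phi Ep κ (fun _ => 0) x = E0 x := by
    intro x hx hcx
    rw [phi_val hκ (l := lab x) (E0 := E0 x) fun i => hpE i x hx hcx]
    simp
  set v0 := vt col c (Phi Ep κ fun _ => 0) with hv0
  obtain ⟨p0, hp0, hc0, he0⟩ := vt_value hg hcol hcen
  rw [← hv0, hcenE p0 hp0 hc0] at he0
  -- the lattice
  have hlat : ∀ p ∈ c.S, col p = true → ∃ n : ℤ, E0 p - v0 = κ * n := by
    intro p hp hcp
    obtain ⟨n, hn⟩ := (hk.even hg hcol hH hp hp0).2 (hcp.trans hc0.symm)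
    refine ⟨n, ?_⟩
    rw [he0, hE p hp p0 hp0 hcp hc0]
    have : (e p : ℝ) - e p0 = n + n := by exact_mod_cast hn
    rw [this]; ring
  have hA : ∀ i, vt col c (Ep i) = v0 ∨ vt col c (Ep i) = v0 + κ := by
    intro i
    have h1 : v0 ≤ vt col c (Ep i) := by
      refine vt_mono_true hg hcol hcen (hp i) fun x hx hcx => ?_
      rw [hcenE x hx hcx, hpE i x hx hcx]; split_ifs <;> linarith
    have h2 : vt col c (Ep i) ≤ v0 + κ := by
      refine vt_lip_true hg hcol (hp i) hcen fun x hx hcx => ?_
      rw [hcenE x hx hcx, hpE i x hx hcx]; split_ifs <;> linarith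
    obtain ⟨p, hp, hcp, he⟩ := vt_value hg hcol (hp i)
    obtain ⟨n, hn⟩ := hlat p hp hcp
    obtain ⟨k, hk'⟩ : ∃ k : ℤ, vt col c (Ep i) - v0 = κ * k := by
      rw [he, hpE i p hp hcp]
      split_ifs
      · exact ⟨n + 1, by push_cast; linarith⟩
      · exact ⟨n, by linarith⟩
    have k1 : (0 : ℝ) ≤ k := by
      by_contra h; push Not at h; nlinarith
    have k2 : (k : ℝ) ≤ 1 := by
      by_contra h; push Not at h; nlinarith
    have k1' : (0 : ℤ) ≤ k := by exact_mod_cast k1
    have k2' : k ≤ 1 := by exact_mod_cast k2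
    rcases (by omega : k = 0 ∨ k = 1) with rfl | rfl
    · left; push_cast at hk'; linarith
    · right; push_cast at hk'; linarith
  have hB : ∀ i, vt col c (Em i) = v0 ∨ vt col c (Em i) = v0 - κ := by
    intro i
    have h1 : vt col c (Em i) ≤ v0 := by
      refine vt_mono_true hg hcol (hm i) hcen fun x hx hcx => ?_
      rw [hcenE x hx hcx, hmE i x hx hcx]; split_ifs <;> linarith
    have h2 : v0 ≤ vt col c (Em i) + κ := by
      refine vt_lip_true hg hcol hcen (hm i) fun x hx hcx => ?_
      rw [hcenE x hx hcx, hmE i x hx hcx]; split_ifs <;> linarith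
    obtain ⟨p, hp, hcp, he⟩ := vt_value hg hcol (hm i)
    obtain ⟨n, hn⟩ := hlat p hp hcp
    obtain ⟨k, hk'⟩ : ∃ k : ℤ, v0 - vt col c (Em i) = κ * k := by
      rw [he, hmE i p hp hcp]
      split_ifs
      · exact ⟨-n + 1, by push_cast; linarith⟩
      · exact ⟨-n, by push_cast; linarith⟩
    have k1 : (0 : ℝ) ≤ k := by
      by_contra h; push Not at h; nlinarith
    have k2 : (k : ℝ) ≤ 1 := by
      by_contra h; push Not at h; nlinarith
    have k1' : (0 : ℤ) ≤ k := by exact_mod_cast k1
    have k2' : k ≤ 1 := by exact_mod_cast k2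
    rcases (by omega : k = 0 ∨ k = 1) with rfl | rfl
    · left; push_cast at hk'; linarith
    · right; push_cast at hk'; linarith
  -- up at `i` and down at `j` is impossible for `i ≠ j`
  have hAB : ∀ i j, i ≠ j → vt col c (Ep i) = v0 + κ → vt col c (Em j) = v0 - κ → False := by
    intro i j hij h1 h2
    have h4 : vt col c (Ep i) ≤ vt col c (Em j) + κ := by
      refine vt_lip_true hg hcol (hp i) (hm j) fun x hx hcx => ?_
      rw [hpE i x hx hcx, hmE j x hx hcx]
      split_ifs with h5 h6
      · exact absurd (h5.symm.trans h6) hij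
      · linarith
      · linarith
      · linarith
    rw [h1, h2] at h4
    linarith
  have hor : ¬ ∀ i, vt col c (Ep i) = v0 + κ := fun h =>
    tripod_or hg hcol hH hk hκ hE Ep hp hpE le_rfl fun i => (h i).ge
  have hand : ¬ ∀ i, vt col c (Em i) = v0 - κ := by
    intro h
    set F : ZMod 3 → W → ℝ := fun i x => - Em (-i) x with hF
    have hFg : ∀ i, GoodE (flipc c) (F i) := by
      intro i
      obtain ⟨M, hM⟩ := hm (-i)
      exact ⟨M, flipc_valid hM⟩
    have hFE : ∀ i, ∀ x ∈ (flipc c).S, col x = true →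
        F i x = (fun x => - E0 x) x + if (fun x => - lab x) x = i then κ else 0 := by
      intro i x hx hcx
      show - Em (-i) x = - E0 x + if - lab x = i then κ else 0
      rw [hmE (-i) x hx hcx]
      by_cases h : lab x = -i
      · rw [if_pos h, if_pos (by rw [h, neg_neg])]; ring
      · rw [if_neg h, if_neg (fun h' => h (by rw [← h', neg_neg]))]; ring
    have hcenF : GoodE (flipc c) (Phi F κ fun _ => 0) := phi_good hκ hFg h6
    have hcenFE : ∀ x ∈ (flipc c).S, col x = true → Phi F κ (fun _ => 0) x = - E0 x := by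
      intro x hx hcx
      rw [phi_val hκ (l := - lab x) (E0 := - E0 x) fun i => hFE i x hx hcx]
      simp
    have hg' := flipc_good hg
    have hcol' : ColOK col (flipc c) := flipc_colOK hcol
    obtain ⟨M0, hM0⟩ := hcen
    have hv : vt col (flipc c) (Phi F κ fun _ => 0) = - v0 := by
      rw [hv0, ← vt_flipc hg hcol hM0]
      refine vt_eq_true hg' hcol' hcenF ⟨M0, flipc_valid hM0⟩ fun x hx hcx => ?_
      rw [hcenFE x hx hcx, hcenE x hx hcx]
    refine tripod_or (c := flipc c) (v0 := - v0) hg' hcol' hH (hk.flip hg hcol) hκ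
      (E0 := fun x => - E0 x) ?_ F hFg hFE hv.le ?_
    · intro x hx y hy h1 h2
      have := hE x hx y hy h1 h2
      push_cast
      linarith
    · intro i
      obtain ⟨M, hM⟩ := hm (-i)
      have h1 : vt col (flipc c) (F i) = - vt col c (Em (-i)) := vt_flipc hg hcol hM
      rw [h1, h (-i)]
      linarith
  have e3 : ∀ F : ZMod 3 → ℝ, ∑ i, F i = F 0 + F 1 + F 2 := by
    intro F
    exact Fin.sum_univ_three F
  rw [e3]
  have hall : ∀ P : ZMod 3 → Prop, (∀ i, P i) ↔ P 0 ∧ P 1 ∧ P 2 := by
    intro P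
    constructor
    · intro h; exact ⟨h 0, h 1, h 2⟩
    · rintro ⟨h0, h1, h2⟩ i
      fin_cases i
      · exact h0
      · exact h1
      · exact h2
  rw [hall] at hor hand
  have n01 : (0 : ZMod 3) ≠ 1 := by decide
  have n02 : (0 : ZMod 3) ≠ 2 := by decide
  have n12 : (1 : ZMod 3) ≠ 2 := by decide
  have q01 := hAB 0 1 n01
  have q10 := hAB 1 0 n01.symm
  have q02 := hAB 0 2 n02
  have q20 := hAB 2 0 n02.symm
  have q12 := hAB 1 2 n12
  have q21 := hAB 2 1 n12.symm
  have a0 := hA 0
  have a1 := hA 1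
  have a2 := hA 2
  have b0 := hB 0
  have b1 := hB 1
  have b2 := hB 2
  generalize vt col c (Ep 0) = A0 at *
  generalize vt col c (Ep 1) = A1 at *
  generalize vt col c (Ep 2) = A2 at *
  generalize vt col c (Em 0) = B0 at *
  generalize vt col c (Em 1) = B1 at *
  generalize vt col c (Em 2) = B2 at *
  clear hAB hA hB
  rcases a0 with a0 | a0 <;> rcases a1 with a1 | a1 <;> rcases a2 with a2 | a2 <;>
    rcases b0 with b0 | b0 <;> rcases b1 with b1 | b1 <;> rcases b2 with b2 | b2 <;>
    first
      | (rw [a0, a1, a2, b0, b1, b2]; linarith)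
      | exact (q01 a0 b1).elim
      | exact (q10 a1 b0).elim
      | exact (q02 a0 b2).elim
      | exact (q20 a2 b0).elim
      | exact (q12 a1 b2).elim
      | exact (q21 a2 b1).elim
      | exact (hor ⟨a0, a1, a2⟩).elim
      | exact (hand ⟨b0, b1, b2⟩).elim

end

end Vale.Agent.P040.H870
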