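import Vale.Agent.P040.H251.SelInst

/-!
# The selector near a robust potential (helper870)

`Rob`: all small perturbations are valid.  At a robust potential the selector `vt` depends,
locally, only on the values at the points of colour `true`.
-/

set_option linter.unusedVariables false
set_option linter.unusedSectionVars false

namespace Vale.Agent.P040.H870

open Vale.Agent.P040.H906 P040H251

variable {W : Type*} [LinearOrder W]

/-- `E` is valid for some hemisphere mass. -/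
def GoodE (c : Cfg W) (E : W → ℝ) : Prop := ∃ M, c.Valid E M

/-- All small perturbations of `E` are valid. -/
def Rob (c : Cfg W) (E : W → ℝ) : Prop :=
  ∃ ε > 0, ∀ E' : W → ℝ, (∀ x ∈ c.S, |E' x - E x| ≤ ε) → GoodE c E'

section
variable {c : Cfg W} {col : W → Bool} {E E1 E2 : W → ℝ}

theorem Rob.good (h : Rob c E) : GoodE c E := by
  obtain ⟨ε, hε, h⟩ := h
  exact h E fun x _ => by simpa using hε.le

theorem dl_congr (hg : c.Good) (he : ∀ x ∈ c.S, E2 x = E1 x) (b : Bool) {x : W}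
    (hx : x ∈ c.S) : c.dl E2 b x = c.dl E1 b x := by
  unfold Cfg.dl
  rw [he x hx, he _ (hg.mem b x hx)]

theorem valid_congr {M : ℝ} (hg : c.Good) (he : ∀ x ∈ c.S, E2 x = E1 x) (hv : c.Valid E1 M) :
    c.Valid E2 M := by
  intro b T hT hPD
  refine le_trans (le_of_eq ?_) (hv b T hT hPD)
  apply Finset.sum_congr rfl
  intro x hx
  rw [dl_congr hg he b (hT hx)]

theorem vt_value (hg : c.Good) (hcol : ColOK col c) (hv : GoodE c E) :
    ∃ p ∈ c.S, col p = true ∧ vt col c E = E p := by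
  obtain ⟨M, hv⟩ := hv
  obtain ⟨a, ha⟩ := exists_out' hg hcol hv
  exact ⟨a, ha.mem, ha.col, vt_eq hg hcol ha⟩

theorem vt_mono' (hg : c.Good) (hcol : ColOK col c) (h1 : GoodE c E1) (h2 : GoodE c E2)
    (hle : ∀ x ∈ c.S, E1 x ≤ E2 x) : vt col c E1 ≤ vt col c E2 := by
  obtain ⟨M1, h1⟩ := h1
  obtain ⟨M2, h2⟩ := h2
  exact vt_mono _ c rfl hg hcol _ _ _ _ h1 h2 hle

theorem vt_lip {δ : ℝ} (hg : c.Good) (hcol : ColOK col c) (h1 : GoodE c E1) (h2 : GoodE c E2)
    (hle : ∀ x ∈ c.S, E1 x ≤ E2 x + δ) : vt col c E1 ≤ vt col c E2 + δ := by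
  obtain ⟨M2, h2⟩ := h2
  rw [← vt_add δ hg hcol h2]
  exact vt_mono' hg hcol h1 ⟨M2, valid_add δ h2⟩ hle

theorem vt_congr' (hg : c.Good) (hcol : ColOK col c) (h1 : GoodE c E1)
    (he : ∀ x ∈ c.S, E2 x = E1 x) : vt col c E2 = vt col c E1 := by
  have h2 : GoodE c E2 := by
    obtain ⟨M, h1⟩ := h1
    exact ⟨M, valid_congr hg he h1⟩
  exact le_antisymm (vt_mono' hg hcol h2 h1 fun x hx => (he x hx).le)
    (vt_mono' hg hcol h1 h2 fun x hx => (he x hx).ge)

/-- Step rule. -/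
theorem vt_step {b : Bool} {x : W} (hg : c.Good) (hcol : ColOK col c) (hc : 2 < c.S.card)
    (hl : c.Leaf b x) (hv : c.Valid E (-(c.dl E b x))) : vt col (c.del b x) E = vt col c E :=
  vt_leaf hg hcol hv hc hl (by ring)

/-- A continuous function on `[0, 1]` with values in a finite set is constant. -/
theorem const_of_finite {f : ℝ → ℝ} {V : Set ℝ} (hV : V.Finite)
    (hf : ContinuousOn f (Set.Icc 0 1)) (hv : ∀ t ∈ Set.Icc (0 : ℝ) 1, f t ∈ V) :
    f 0 = f 1 := by
  have h1 : IsPreconnected (f '' Set.Icc 0 1) := isPreconnected_Icc.image f hf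
  have h2 : (f '' Set.Icc 0 1).Finite := hV.subset (by rintro _ ⟨t, ht, rfl⟩; exact hv t ht)
  have h3 : (f '' Set.Icc 0 1).Subsingleton := by
    by_contra hn
    rw [Set.not_subsingleton_iff] at hn
    exact h1.infinite_of_nontrivial hn h2
  exact h3 ⟨0, ⟨le_rfl, zero_le_one⟩, rfl⟩ ⟨1, ⟨zero_le_one, le_rfl⟩, rfl⟩

theorem goodE_sgm {t : ℝ} (h0 : 0 ≤ t) (h1 : t ≤ 1) (hv1 : GoodE c E1) (hv2 : GoodE c E2) :
    GoodE c (sgm E1 E2 t) := by
  obtain ⟨M1, hv1⟩ := hv1
  obtain ⟨M2, hv2⟩ := hv2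
  exact ⟨_, valid_sgm h0 h1 hv1 hv2⟩

theorem vt_continuousOn (hg : c.Good) (hcol : ColOK col c) (hv1 : GoodE c E1)
    (hv2 : GoodE c E2) :
    ContinuousOn (fun t : ℝ => vt col c (sgm E1 E2 t)) (Set.Icc 0 1) := by
  obtain ⟨K, hK⟩ : ∃ K : ℝ, ∀ x ∈ c.S, |E2 x - E1 x| ≤ K := by
    refine ⟨∑ x ∈ c.S, |E2 x - E1 x|, fun x hx => ?_⟩
    exact Finset.single_le_sum (f := fun x => |E2 x - E1 x|) (fun y _ => abs_nonneg _) hx
  have hK0 : 0 ≤ K := by
    obtain ⟨x, hx⟩ := hg.nonem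
    exact (abs_nonneg _).trans (hK x hx)
  have hlip : ∀ s ∈ Set.Icc (0 : ℝ) 1, ∀ t ∈ Set.Icc (0 : ℝ) 1,
      vt col c (sgm E1 E2 s) ≤ vt col c (sgm E1 E2 t) + |s - t| * K := by
    intro s hs t ht
    apply vt_lip hg hcol (goodE_sgm hs.1 hs.2 hv1 hv2) (goodE_sgm ht.1 ht.2 hv1 hv2)
    intro x hx
    have h3 : sgm E1 E2 s x - sgm E1 E2 t x = (s - t) * (E2 x - E1 x) := by
      simp only [sgm]; ring
    have h4 : (s - t) * (E2 x - E1 x) ≤ |s - t| * K := by
      calc (s - t) * (E2 x - E1 x) ≤ |(s - t) * (E2 x - E1 x)| := le_abs_self _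
        _ = |s - t| * |E2 x - E1 x| := abs_mul _ _
        _ ≤ |s - t| * K := mul_le_mul_of_nonneg_left (hK x hx) (abs_nonneg _)
    linarith
  apply LipschitzOnWith.continuousOn (K := K.toNNReal)
  apply LipschitzOnWith.of_dist_le_mul
  intro s hs t ht
  rw [Real.dist_eq, Real.dist_eq, abs_le, Real.coe_toNNReal K hK0]
  have a1 := hlip s hs t ht
  have a2 := hlip t ht s hs
  rw [abs_sub_comm t s] at a2
  constructor <;> nlinarith

/-- Locally the selector depends only on the values at the points of colour `true`. -/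
theorem vt_locdep (hg : c.Good) (hcol : ColOK col c) {ε : ℝ}
    (hR : ∀ E' : W → ℝ, (∀ x ∈ c.S, |E' x - E x| ≤ ε) → GoodE c E')
    (h1 : ∀ x ∈ c.S, |E1 x - E x| ≤ ε) (h2 : ∀ x ∈ c.S, |E2 x - E x| ≤ ε)
    (h12 : ∀ x ∈ c.S, col x = true → E1 x = E2 x) : vt col c E1 = vt col c E2 := by
  have key := const_of_finite (f := fun t => vt col c (sgm E1 E2 t))
    (V := (E1 '' (c.S : Set W))) ((c.S.finite_toSet).image _)
    (vt_continuousOn hg hcol (hR _ h1) (hR _ h2)) ?_
  · simpa only [sgm_zero, sgm_one] using key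
  · intro t ht
    obtain ⟨p, hp, hs, hv⟩ := vt_value (col := col) hg hcol
      (goodE_sgm ht.1 ht.2 (hR _ h1) (hR _ h2))
    refine ⟨p, hp, ?_⟩
    rw [hv]
    simp only [sgm]
    rw [h12 p hp hs]
    ring

/-- lowering the level down to the largest increment -/
theorem valid_erode {M M' : ℝ} (hg : c.Good) (hv : c.Valid E M) (hle : M' ≤ M)
    (h : ∀ b, ∀ x ∈ c.S, c.dl E b x ≤ M') : c.Valid E M' := by
  have hM0 : 0 ≤ M' := by
    obtain ⟨x, hx⟩ := hg.nonem
    have h1 := h true x hx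
    have h2 := h true _ (hg.mem true x hx)
    rw [Cfg.dl_inv hg hx] at h2
    linarith
  intro b T hT hPD
  rcases Nat.lt_or_ge T.card 2 with h2 | h2
  · rcases Nat.lt_or_ge T.card 1 with h1 | h1
    · have : T = ∅ := by rw [← Finset.card_eq_zero]; omega
      subst this; simp; linarith
    · obtain ⟨x, rfl⟩ := Finset.card_eq_one.1 (by omega : T.card = 1)
      have := h b x (hT (by simp))
      simp; linarith
  · have h3 := hv b T hT hPD
    rw [Finset.sum_add_distrib, Finset.sum_const, nsmul_eq_mul] at h3 ⊢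
    have h4 : (2 : ℝ) ≤ T.card := by exact_mod_cast h2
    nlinarith

end

end Vale.Agent.P040.H870
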