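import Vale.Agent.P040.H870.Core

/-!
# No tripod (helper870)
-/

set_option linter.unusedVariables false
set_option linter.unusedSectionVars false

namespace Vale.Agent.P040.H870

open Vale.Agent.P040.H906 P040H251

variable {W : Type*} [LinearOrder W]

/-- In a chain of admissible pairs not all residues mod 3 occur. -/
theorem no_three {D : Finset (ℕ × ℕ)} {a : ZMod 3}
    (h1 : ∀ d ∈ D, d.1 ≤ 3 ∧ d.2 ≤ 1 ∧ (d.1 + d.2) % 2 = 0)
    (h2 : ∀ d ∈ D, ∀ d' ∈ D, (d.1 ≤ d'.1 ∧ d.2 ≤ d'.2) ∨ (d'.1 ≤ d.1 ∧ d'.2 ≤ d.2))
    (h3 : ∀ i : ZMod 3, ∃ d ∈ D, a - (d.1 : ZMod 3) = i) : False := by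
  obtain ⟨d, hd, hd'⟩ := h3 (a - 1)
  obtain ⟨f, hf, hf'⟩ := h3 (a - 2)
  have e1 : (d.1 : ZMod 3) = 1 := by
    have := congrArg (fun t => a - t) hd'
    simpa using this
  have e2 : (f.1 : ZMod 3) = 2 := by
    have := congrArg (fun t => a - t) hf'
    simpa using this
  obtain ⟨k1, k2, k3⟩ := h1 d hd
  obtain ⟨k4, k5, k6⟩ := h1 f hf
  have d1 : d.1 = 1 := by
    interval_cases h : d.1
    · exfalso; revert e1; decide
    · rfl
    · exfalso; revert e1; decide
    · exfalso; revert e1; decide
  have f1 : f.1 = 2 := by
    interval_cases h : f.1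
    · exfalso; revert e2; decide
    · exfalso; revert e2; decide
    · rfl
    · exfalso; revert e2; decide
  have := h2 d hd f hf
  omega

theorem Mk.lam_le {c : Cfg W} {col : W → Bool} {e : W → ℤ} {H : ℤ} {lam : Bool → W → ℕ}
    {lab : W → ZMod 3} (hg : c.Good) (h : Mk c col e H lam lab) {x : W} (hx : x ∈ c.S) :
    lam false x ≤ 3 := by
  have h1 : c.f false x ∈ c.S := hg.mem false x hx
  have h2 : x ≠ c.f false x := (hg.ne false x hx).symm
  have h3 : ∑ y ∈ ({x, c.f false x} : Finset W), (lam true y + lam false y) ≤ 6 := by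
    refine le_trans (Finset.sum_le_sum_of_subset ?_) h.tot
    intro y hy
    simp only [Finset.mem_insert, Finset.mem_singleton] at hy
    rcases hy with rfl | rfl <;> assumption
  rw [Finset.sum_pair h2, h.sym false x hx] at h3
  omega

theorem no_tripod : ∀ (n : ℕ) (c : Cfg W), c.S.card = n → c.Good → ∀ (col : W → Bool)
    (E : W → ℝ) (e : W → ℤ) (H : ℤ) (lam : Bool → W → ℕ) (lab : W → ZMod 3)
    (D : W → Finset (ℕ × ℕ)), ColOK col c → Rob c E → Odd H → Mk c col e H lam lab →
    DOK c col lam D →
    (∀ p ∈ c.S, ∀ p' ∈ c.S, col p = true → col p' = true → E p = E p' → e p = e p') →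
    (∀ i : ZMod 3, Hyp c col E (Ui col lab D i)) → False := by
  intro n
  induction n using Nat.strong_induction_on with
  | _ n ih =>
    intro c hn hg col E e H lam lab D hcol hR hH hk hD htie hU
    rcases Nat.lt_or_ge 2 c.S.card with hc | hc
    · obtain ⟨ρ0, hρ0, hR0⟩ := hR
      set ρ := ρ0 / 2 with hρd
      have hρ : 0 < ρ := by positivity
      have hR2 : ∀ E' : W → ℝ, (∀ x ∈ c.S, |E' x - E x| ≤ 2 * ρ) → GoodE c E' := by
        intro E' hE'
        apply hR0 E'
        intro x hx
        have := hE' x hx
        rw [hρd] at this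
        linarith
      obtain ⟨β, q, hcq, X⟩ := exists_ext hg hcol hρ hR2
      have hq := X.hq
      have habs : |sg β * ρ| ≤ ρ := by
        rw [sg_abs, abs_of_pos hρ]
      set E1 : W → ℝ := fun y => if y = q then E y - sg β * ρ else E y with hE1
      have hR1 : Rob c E1 := rob_shift hρ hR2 habs
      have hU1 : ∀ i, Hyp c col E1 (Ui col lab D i) := fun i =>
        hyp_shift hg hcol hρ hR2 habs hcq (hU i)
      have hE1t : ∀ y, col y = true → E1 y = E y := by
        intro y hy
        have : y ≠ q := by rintro rfl; rw [hcq] at hy; cases hy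
        simp only [hE1, if_neg this]
      have htie1 : ∀ p ∈ c.S, ∀ p' ∈ c.S, col p = true → col p' = true → E1 p = E1 p' →
          e p = e p' := by
        intro p hp p' hp' h1 h2 h3
        rw [hE1t p h1, hE1t p' h2] at h3
        exact htie p hp p' hp' h1 h2 h3
      have hδ : 0 < ρ / 8 := by positivity
      have hp := hg.mem β q hq
      have hp' := hg.mem (!β) q hq
      have hcp : col (c.f β q) = true := by rw [hcol β q hq, hcq]; rfl
      have hcp' : col (c.f (!β) q) = true := by rw [hcol (!β) q hq, hcq]; rfl
      have hne : c.f β q ≠ c.f (!β) q := (hg.ne_other hc β hq).symm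
      have sabs : |sg β| = 1 := by cases β <;> simp [sg]
      -- the recursive call
      have hrec : ∀ (b : Bool) (x : W) (D' : W → Finset (ℕ × ℕ)), c.Leaf b x →
          Rob (c.del b x) E1 → DOK (c.del b x) col (lamDel c lam b x) D' →
          (∀ i, Hyp (c.del b x) col E1 (Ui col lab D' i)) → False := by
        intro b x D' hl h1 h2 h3
        have hcard := Cfg.card_del hg hl.1 (b := b)
        refine ih (c.del b x).S.card (by omega) (c.del b x) rfl (Cfg.good_del hg hc hl) col E1 e H
          (lamDel c lam b x) lab D' (hcol.del hg b hl.1) h1 hH (hk.del hg hc hcol hH hl) h2 ?_ h3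
        intro p hp p' hp'
        exact htie1 p (Cfg.mem_del.1 hp).2.2 p' (Cfg.mem_del.1 hp').2.2
      rcases lt_trichotomy (sg β * E1 (c.f β q)) (sg β * E1 (c.f (!β) q)) with hlt | heq | hlt
      · -- the leaf `q → p'` is strictly minimal
        have hl := ext_leafQ hg hδ X hlt.le hne
        set δ := min (ρ / 8) ((sg β * E1 (c.f (!β) q) - sg β * E1 (c.f β q)) / 2) with hδd
        have hδ' : 0 < δ := lt_min hδ (by linarith)
        have hval : ∀ E' : W → ℝ, (∀ y ∈ c.S, |E' y - E1 y| ≤ δ) →
            c.Valid E' (-(c.dl E' (!β) q)) := by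
          intro E' hE'
          apply ext_valQ hg X fun y hy => (hE' y hy).trans (min_le_left _ _)
          have h1 := hE' _ hp
          have h2 := hE' _ hp'
          rw [← sg_abs β] at h1 h2
          have h1' := abs_le.1 h1
          have h2' := abs_le.1 h2
          have h3 : δ ≤ (sg β * E1 (c.f (!β) q) - sg β * E1 (c.f β q)) / 2 := min_le_right _ _
          linarith [h1'.1, h1'.2, h2'.1, h2'.2]
        exact hrec (!β) q D hl (rob_del hg hc hl hδ' hval) (DOK.del hg hk.sym hl.1 hD)
          fun i => hyp_del hg hc hcol hl hδ' hval (hU1 i)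
      · -- tie
        have htE : E1 (c.f β q) = E1 (c.f (!β) q) := by
          have s2 : sg β * sg β = 1 := sg_sq β
          have := congrArg (fun t => sg β * t) heq
          simp only [← mul_assoc, s2, one_mul] at this
          exact this
        have hl1 := ext_leafP hg hδ X heq.ge hne
        have hl2 := ext_leafQ hg hδ X heq.le hne
        have hrob := rob_tie hg hc hδ X htE hl2
        cases β
        · -- max gate
          have hl1' : c.Leaf false (c.f false q) := hl1
          have hl2' : c.Leaf true q := hl2
          have hee : e (c.f false q) = e (c.f true q) := htie1 _ hp _ hp' hcp hcp' htE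
          have hDm := DOK.max hg hc hcol hk hD hq hcq hl1' hl2' hee
          refine hrec true q _ hl2' hrob hDm fun i => ?_
          refine hyp_max hg hc hcol hδ hR1 X htE hl2' (hU1 i) ?_ ?_ ?_
          · rintro y hy hyq hyp' ⟨hy1, d, hd, hd2⟩
            refine ⟨hy1, d, ?_, hd2⟩
            unfold Dmax
            split_ifs with h
            · rw [h] at hd
              exact Finset.mem_union_left _ hd
            · exact hd
          · rintro ⟨hy1, d, hd, hd2⟩
            refine ⟨hcp, (lam false q + lam true q + d.1,
              (wr (c.f false q) q + wr q (c.f true q)).toNat + d.2), ?_, ?_⟩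
            · unfold Dmax
              rw [if_pos rfl]
              exact Finset.mem_union_right _ (Finset.mem_image.2 ⟨d, hd, rfl⟩)
            · -- labels: `p' → q → p`
              have l1 := hk.lab _ hp'
              have l2 := hk.lab _ hq
              rw [show c.f (!false) q = c.f true q from rfl] at l1
              rw [show col (c.f true q) = true from hcp', hg.inv true q hq,
                hk.sym true q hq] at l1
              rw [hcq] at l2
              rw [← hd2, l2, l1]
              push_cast
              ring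
          · rintro ⟨h, _⟩
            rw [hcq] at h; cases h
        · -- min gate
          have hl1' : c.Leaf true (c.f true q) := hl1
          have hl2' : c.Leaf false q := hl2
          exact hrec false q D hl2' hrob (DOK.del hg hk.sym hl2'.1 hD)
            fun i => hyp_min hg hc hcol hδ X htE hl1' hl2' (hU1 i)
      · -- the leaf `p → q` is strictly minimal
        have hl := ext_leafP hg hδ X hlt.le hne
        set δ := min (ρ / 8) ((sg β * E1 (c.f β q) - sg β * E1 (c.f (!β) q)) / 2) with hδd
        have hδ' : 0 < δ := lt_min hδ (by linarith)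
        have hval : ∀ E' : W → ℝ, (∀ y ∈ c.S, |E' y - E1 y| ≤ δ) →
            c.Valid E' (-(c.dl E' β (c.f β q))) := by
          intro E' hE'
          apply ext_valP hg X fun y hy => (hE' y hy).trans (min_le_left _ _)
          have h1 := hE' _ hp
          have h2 := hE' _ hp'
          rw [← sg_abs β] at h1 h2
          have h1' := abs_le.1 h1
          have h2' := abs_le.1 h2
          have h3 : δ ≤ (sg β * E1 (c.f β q) - sg β * E1 (c.f (!β) q)) / 2 := min_le_right _ _
          linarith [h1'.1, h1'.2, h2'.1, h2'.2]
        exact hrec β (c.f β q) D hl (rob_del hg hc hl hδ' hval) (DOK.del hg hk.sym hl.1 hD)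
          fun i => hyp_del hg hc hcol hl hδ' hval (hU1 i)
    · -- two points
      have h2 := two_le hg
      have hc2 : c.S.card = 2 := by omega
      obtain ⟨ρ, hρ, hR⟩ := hR
      obtain ⟨M, hM⟩ := hR E fun y _ => by simpa using hρ.le
      obtain ⟨a, ha⟩ := exists_out' hg hcol hM
      have hout : ∀ E' : W → ℝ, Out E' col c a := fun E' => Out.base hc2 ha.mem ha.col
      refine no_three (D := D a) (a := lab a) ?_ (hD a ha.mem ha.col).2 ?_
      · intro d hd
        obtain ⟨k1, k2, k3⟩ := (hD a ha.mem ha.col).1 d hd
        exact ⟨k1.trans (hk.lam_le hg ha.mem), k2.trans (top_le _ _), k3⟩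
      · intro i
        obtain ⟨s₀, hs₀, h⟩ := hU i
        have h1 := h s₀ hs₀ le_rfl
        rw [vt_eq hg hcol (hout E), vt_eq hg hcol (hout _)] at h1
        by_contra hn
        have : ¬ Ui col lab D i a := fun h => hn h.2
        rw [bump_not this] at h1
        linarith

end Vale.Agent.P040.H870
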