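import Vale.Agent.P040.H870.Cut
import Vale.Agent.P040.H908.HexG
import Vale.Agent.P040.H522.OFin

/-!
# P040, both parts odd: the machine (helper870)

The tripod exclusion `hex_law` (any cut) closes helper908's `HexVt`, hence helper522's
`oddMachine_of_hex`.
-/

set_option autoImplicit false

namespace Vale.Agent.P040.H870

open Vale.Agent.P040.H906 P040H251

theorem hexVt : H908.HexVt := fun _c _col _E₀ _M₀ _lam _lab _wl hg hcol _ hL Ep Em hp hm hpe hme =>
  hex_law hg hcol hL Ep Em hp hm hpe hme

/-- **The odd machine.** -/
theorem oddMachine : Odd.OddMachine :=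
  H522.oddMachine_of_hex fun _h P => H908.hexGeom_of hexVt P

end Vale.Agent.P040.H870
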