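import Vale.Agent.P040.H870.NoTripod
import Vale.Agent.P040.H906.TriF
import Vale.Agent.P040.H688.Ind

/-!
# From three valid phases to a robust tripod (helper870)

Only the values at the points of colour `true` are prescribed.  The maximisation argument is
the one of `H906.TriF`, the robust potential is the one of `H587.Robust`.
-/

set_option linter.unusedVariables false
set_option linter.unusedSectionVars false

namespace Vale.Agent.P040.H870

open Vale.Agent.P040.H906 P040H251

variable {W : Type*} [LinearOrder W]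

section
variable {c : Cfg W} {col : W → Bool}

theorem GoodE.add {E : W → ℝ} (h : GoodE c E) (t : ℝ) : GoodE c (fun y => E y + t) := by
  obtain ⟨M, h⟩ := h
  exact ⟨M, valid_add t h⟩

/-- **monotone in the values at the points of colour `true`** -/
theorem vt_mono_true {E1 E2 : W → ℝ} (hg : c.Good) (hcol : ColOK col c) (h1 : GoodE c E1)
    (h2 : GoodE c E2) (hle : ∀ x ∈ c.S, col x = true → E1 x ≤ E2 x) :
    vt col c E1 ≤ vt col c E2 := by
  classical
  obtain ⟨M1, hv1⟩ := h1
  obtain ⟨M2, hv2⟩ := h2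
  by_contra hlt
  rw [not_le] at hlt
  have hcont := H688.continuousOn_vt_sgm hg hcol hv1 hv2
  obtain ⟨θ, hθ1, hθ2⟩ := exists_between hlt
  set K : Set ℝ := Set.Icc (0 : ℝ) 1 ∩ (fun t => vt col c (sgm E1 E2 t)) ⁻¹' Set.Ici θ with hK
  have hKc : IsCompact K :=
    isCompact_Icc.of_isClosed_subset
      (hcont.preimage_isClosed_of_isClosed isClosed_Icc isClosed_Ici) Set.inter_subset_left
  have h0 : (0 : ℝ) ∈ K := by
    refine ⟨by simp, ?_⟩
    show θ ≤ vt col c (sgm E1 E2 0)
    rw [sgm_zero]; exact hθ2.le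
  obtain ⟨t0, ht0, hmax⟩ := hKc.exists_isGreatest ⟨0, h0⟩
  have ht00 := ht0.1.1
  have hg0 : θ ≤ vt col c (sgm E1 E2 t0) := ht0.2
  have ht1 : t0 < 1 := by
    rcases lt_or_eq_of_le ht0.1.2 with h | h
    · exact h
    · rw [h, sgm_one] at hg0
      linarith
  obtain ⟨δ, hδ, hgap⟩ := exists_gap c.S (sgm E1 E2 t0) θ
  obtain ⟨B, hB0, hB⟩ := exists_bound c.S E1 E2
  -- a time slightly after `t0`
  obtain ⟨τ, hτ0, hτ1, hτ2⟩ : ∃ τ : ℝ, 0 < τ ∧ τ ≤ 1 - t0 ∧ 2 * (B * τ) < δ := by
    refine ⟨min (1 - t0) (δ / (4 * B + 4)), lt_min (by linarith) (by positivity),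
      min_le_left _ _, ?_⟩
    have h1 : min (1 - t0) (δ / (4 * B + 4)) ≤ δ / (4 * B + 4) := min_le_right _ _
    have h2 : B * min (1 - t0) (δ / (4 * B + 4)) ≤ B * (δ / (4 * B + 4)) :=
      mul_le_mul_of_nonneg_left h1 hB0
    have h3 : B * (δ / (4 * B + 4)) ≤ δ / 4 := by
      rw [← mul_div_assoc, div_le_div_iff₀ (by positivity) (by norm_num)]
      nlinarith
    linarith
  have hvt : ∀ t ∈ Set.Icc (0 : ℝ) 1, c.Valid (sgm E1 E2 t) ((1 - t) * M1 + t * M2) :=
    fun t ht => valid_sgm ht.1 ht.2 hv1 hv2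
  have hm : t0 + τ ∈ Set.Icc (0 : ℝ) 1 := ⟨by linarith, by linarith⟩
  have hgt : vt col c (sgm E1 E2 (t0 + τ)) < θ := by
    by_contra hcon
    rw [not_lt] at hcon
    have : t0 + τ ≤ t0 := hmax ⟨hm, hcon⟩
    linarith
  have hdiff : ∀ x ∈ c.S, |sgm E1 E2 (t0 + τ) x - sgm E1 E2 t0 x| ≤ B * τ := by
    intro x hx
    have e1 : sgm E1 E2 (t0 + τ) x - sgm E1 E2 t0 x = -τ * (E1 x - E2 x) := by unfold sgm; ring
    rw [e1, abs_mul, abs_neg, abs_of_pos hτ0, mul_comm]
    exact mul_le_mul_of_nonneg_right (hB x hx) hτ0.le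
  have hge : vt col c (sgm E1 E2 t0) ≤ vt col c (sgm E1 E2 (t0 + τ)) + B * τ := by
    refine vt_lip hg hcol ⟨_, hvt t0 ht0.1⟩ ⟨_, hvt _ hm⟩ fun x hx => ?_
    have := abs_le.1 (hdiff x hx)
    linarith [this.1]
  obtain ⟨p, hp, hcp, he⟩ := vt_value hg hcol ⟨_, hvt _ hm⟩
  have h3 := abs_le.1 (hdiff p hp)
  rw [he] at hgt hge
  have h4 : sgm E1 E2 t0 p = θ := by
    apply hgap p hp
    rw [abs_lt]
    constructor <;> linarith [h3.1, h3.2]
  have h5 : sgm E1 E2 t0 p ≤ sgm E1 E2 (t0 + τ) p := by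
    have e1 : sgm E1 E2 (t0 + τ) p - sgm E1 E2 t0 p = τ * (E2 p - E1 p) := by unfold sgm; ring
    have := mul_nonneg hτ0.le (sub_nonneg.2 (hle p hp hcp))
    linarith
  linarith

theorem vt_lip_true {E1 E2 : W → ℝ} {δ : ℝ} (hg : c.Good) (hcol : ColOK col c) (h1 : GoodE c E1)
    (h2 : GoodE c E2) (hle : ∀ x ∈ c.S, col x = true → E1 x ≤ E2 x + δ) :
    vt col c E1 ≤ vt col c E2 + δ := by
  have h3 := vt_mono_true hg hcol h1 (h2.add δ) hle
  obtain ⟨M, h2⟩ := h2
  rwa [vt_add δ hg hcol h2] at h3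

theorem vt_eq_true {E1 E2 : W → ℝ} (hg : c.Good) (hcol : ColOK col c) (h1 : GoodE c E1)
    (h2 : GoodE c E2) (hle : ∀ x ∈ c.S, col x = true → E1 x = E2 x) :
    vt col c E1 = vt col c E2 :=
  le_antisymm (vt_mono_true hg hcol h1 h2 fun x hx h => (hle x hx h).le)
    (vt_mono_true hg hcol h2 h1 fun x hx h => (hle x hx h).ge)

/-! ### the family of phases -/

/-- a phase with prescribed values at the points of colour `true` -/
noncomputable def Phi (F : ZMod 3 → W → ℝ) (κ : ℝ) (u : ZMod 3 → ℝ) : W → ℝ := fun x =>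
  (∑ i, (u i - ((u 0 + u 1 + u 2) - κ) / 3) / κ * F i x) + ((u 0 + u 1 + u 2) - κ) / 3

theorem dl_sum (F : ZMod 3 → W → ℝ) (t : ZMod 3 → ℝ) (b : Bool) (x : W) :
    c.dl (fun y => ∑ i, t i * F i y) b x = ∑ i, t i * c.dl (F i) b x := by
  unfold Cfg.dl
  rw [← Finset.sum_sub_distrib, Finset.mul_sum]
  exact Finset.sum_congr rfl fun i _ => by ring

theorem goodE_sum {F : ZMod 3 → W → ℝ} {t : ZMod 3 → ℝ} (hF : ∀ i, GoodE c (F i))
    (ht : ∀ i, 0 ≤ t i) : GoodE c (fun y => ∑ i, t i * F i y) := by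
  choose M hM using hF
  refine ⟨∑ i, t i * M i, fun b T hT hPD => ?_⟩
  have e1 : ∑ x ∈ T, (∑ i, t i * M i + c.dl (fun y => ∑ i, t i * F i y) b x) =
      ∑ i, t i * ∑ x ∈ T, (M i + c.dl (F i) b x) := by
    simp_rw [dl_sum, ← Finset.sum_add_distrib, Finset.mul_sum, ← mul_add]
    exact Finset.sum_comm
  rw [e1, Finset.mul_sum]
  refine Finset.sum_le_sum fun i _ => ?_
  have := mul_le_mul_of_nonneg_left (hM i b T hT hPD) (ht i)
  linarith

theorem phi_good {F : ZMod 3 → W → ℝ} {κ : ℝ} (hκ : 0 < κ) (hF : ∀ i, GoodE c (F i))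
    {u : ZMod 3 → ℝ} (hu : ∀ i, |u i| ≤ κ / 6) : GoodE c (Phi F κ u) := by
  refine (goodE_sum hF fun i => ?_).add _
  refine div_nonneg ?_ hκ.le
  have h0 := abs_le.1 (hu 0)
  have h1 := abs_le.1 (hu 1)
  have h2 := abs_le.1 (hu 2)
  have hi := abs_le.1 (hu i)
  linarith [h0.2, h1.2, h2.2, hi.1]

theorem phi_val {F : ZMod 3 → W → ℝ} {κ : ℝ} (hκ : 0 < κ) {E0 : ℝ} {l : ZMod 3} {x : W}
    (hx : ∀ i, F i x = E0 + if l = i then κ else 0) (u : ZMod 3 → ℝ) :
    Phi F κ u x = E0 + u l := by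
  have hκ' : κ ≠ 0 := hκ.ne'
  have e3 : ∀ G : ZMod 3 → ℝ, ∑ i, G i = G 0 + G 1 + G 2 := fun G => Fin.sum_univ_three G
  unfold Phi
  simp_rw [hx, mul_add, Finset.sum_add_distrib, mul_ite, mul_zero]
  rw [Finset.sum_ite_eq Finset.univ l, if_pos (Finset.mem_univ l), ← Finset.sum_mul, e3]
  field_simp
  ring

/-- the response of the selector to a small raise of the points of an arc -/
theorem resp {E : W → ℝ} {U : W → Prop} {δ s : ℝ} (hg : c.Good)
    (hcol : ColOK col c) (hv : GoodE c E) (hv' : GoodE c (bump E U s))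
    (hgap : ∀ x ∈ c.S, |E x - vt col c E| < δ → E x = vt col c E) (hs : s < δ)
    (hgt : vt col c E < vt col c (bump E U s)) (hs0 : 0 ≤ s) :
    vt col c E + s ≤ vt col c (bump E U s) := by
  have h2 : vt col c (bump E U s) ≤ vt col c E + s := by
    refine vt_lip hg hcol hv' hv fun x _ => ?_
    by_cases h : U x
    · rw [bump_of h]
    · rw [bump_not h]; linarith
  obtain ⟨p, hp, hc, he⟩ := vt_value hg hcol hv'
  by_cases h : U p
  · rw [bump_of h] at he
    have := hgap p hp (by rw [abs_lt]; constructor <;> linarith)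
    rw [he, this]
  · rw [bump_not h] at he
    have := hgap p hp (by rw [abs_lt]; constructor <;> linarith)
    rw [he, this] at hgt
    exact absurd hgt (lt_irrefl _)

/-- **(F)**: three valid phases, each of which raises the selector at full speed, give a robust
phase at which the three arcs raise the selector at full speed. -/
theorem exists_rob_or {E0 : W → ℝ} {lab : W → ZMod 3} {κ v0 : ℝ} (hg : c.Good)
    (hcol : ColOK col c) (hκ : 0 < κ) (F : ZMod 3 → W → ℝ) (hF : ∀ i, GoodE c (F i))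
    (hFE : ∀ i, ∀ x ∈ c.S, col x = true → F i x = E0 x + if lab x = i then κ else 0)
    (hor : ∀ i, v0 + κ ≤ vt col c (F i)) (h0 : vt col c (Phi F κ fun _ => 0) ≤ v0) :
    ∀ δ : ℝ, 0 < δ → ∃ E : W → ℝ, Rob c E ∧ (∀ x ∈ c.S, col x = true → |E x - E0 x| ≤ δ) ∧
      ∀ i, Hyp c col E (fun y => col y = true ∧ lab y = i) := by
  classical
  intro δ hδ
  obtain ⟨E1, hE1⟩ := H587.exists_rob hg
  obtain ⟨B, hB0, hB⟩ := exists_bound c.S E1 E0
  -- the parameter
  obtain ⟨d, hd0, hd1, hd2, hd3⟩ : ∃ d : ℝ, 0 < d ∧ d ≤ 1 / 2 ∧ 4 * (d * B) < κ / 12 ∧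
      5 * (d * B) ≤ δ := by
    refine ⟨min (1 / 2) (min (κ / (96 * B + 96)) (δ / (5 * B + 5))), ?_, min_le_left _ _, ?_, ?_⟩
    · refine lt_min (by norm_num) (lt_min (by positivity) (by positivity))
    · set d := min (1 / 2) (min (κ / (96 * B + 96)) (δ / (5 * B + 5))) with hd
      have h1 : d ≤ κ / (96 * B + 96) := (min_le_right _ _).trans (min_le_left _ _)
      have h2 : d * B ≤ κ / (96 * B + 96) * B := mul_le_mul_of_nonneg_right h1 hB0
      have h3 : κ / (96 * B + 96) * B ≤ κ / 96 := by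
        rw [div_mul_eq_mul_div, div_le_div_iff₀ (by positivity) (by norm_num)]
        nlinarith
      linarith
    · set d := min (1 / 2) (min (κ / (96 * B + 96)) (δ / (5 * B + 5))) with hd
      have h1 : d ≤ δ / (5 * B + 5) := (min_le_right _ _).trans (min_le_right _ _)
      have h2 : d * B ≤ δ / (5 * B + 5) * B := mul_le_mul_of_nonneg_right h1 hB0
      have h3 : δ / (5 * B + 5) * B ≤ δ / 5 := by
        rw [div_mul_eq_mul_div, div_le_div_iff₀ (by positivity) (by norm_num)]
        nlinarith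
      linarith
  have hd1' : (0 : ℝ) < 1 - d := by linarith
  have hdB : 0 ≤ d * B := by positivity
  set ψ : (ZMod 3 → ℝ) → W → ℝ := fun u x =>
    (1 - d) * Phi F κ (fun i => u i / (1 - d)) x + d * E1 x with hψ
  have hψv : ∀ u, ∀ x ∈ c.S, col x = true →
      ψ u x = (1 - d) * E0 x + d * E1 x + u (lab x) := by
    intro u x hx hcx
    rw [hψ]
    show (1 - d) * Phi F κ (fun i => u i / (1 - d)) x + d * E1 x = _
    rw [phi_val hκ (l := lab x) (E0 := E0 x) (fun i => hFE i x hx hcx)]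
    field_simp
    ring
  have hEd : ∀ x ∈ c.S, |(1 - d) * E0 x + d * E1 x - E0 x| ≤ d * B := by
    intro x hx
    have e1 : (1 - d) * E0 x + d * E1 x - E0 x = d * (E1 x - E0 x) := by ring
    rw [e1, abs_mul, abs_of_pos hd0]
    exact mul_le_mul_of_nonneg_left (hB x hx) hd0.le
  have hrob : ∀ u : ZMod 3 → ℝ, (∀ i, |u i| ≤ κ / 12) → Rob c (ψ u) := by
    intro u hu
    obtain ⟨M, hM⟩ : GoodE c (Phi F κ fun i => u i / (1 - d)) := by
      refine phi_good hκ hF fun i => ?_
      rw [abs_div, abs_of_pos hd1', div_le_iff₀ hd1']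
      have := hu i
      nlinarith
    obtain ⟨ε, hε, h⟩ := hE1 _ M hM d hd0 (by linarith)
    exact ⟨ε, hε, h⟩
  set G : (ZMod 3 → ℝ) → ℝ := fun u => vt col c (ψ u) with hG
  have hG0 : G (fun _ => 0) ≤ v0 + d * B := by
    refine le_trans (vt_lip_true hg hcol (hrob _ (by intro i; simp; positivity)).good
      (phi_good hκ hF (u := fun _ => 0) (by intro i; simp; positivity)) (δ := d * B)
      fun x hx hcx => ?_) (by linarith)
    rw [hψv _ x hx hcx, phi_val hκ (l := lab x) (E0 := E0 x) (fun i => hFE i x hx hcx)]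
    have := abs_le.1 (hEd x hx)
    linarith [this.2]
  -- the lower bound
  have hOR : ∀ u : ZMod 3 → ℝ, (∀ i, |u i| ≤ κ / 12) → ∀ i, v0 + u i ≤ G u + d * B := by
    intro u hu i
    have hui := abs_le.1 (hu i)
    have h1 : vt col c (F i) ≤ vt col c (ψ u) + (d * B + κ - u i) := by
      refine vt_lip_true hg hcol (hF i) (hrob u hu).good fun x hx hcx => ?_
      rw [hψv u x hx hcx, hFE i x hx hcx]
      have h2 := abs_le.1 (hEd x hx)
      split_ifs with h
      · rw [h]; linarith [h2.1]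
      · have := abs_le.1 (hu (lab x))
        linarith [h2.1, this.1, hui.2]
    have h2 := hor i
    have h3 : G u = vt col c (ψ u) := rfl
    linarith
  have hlip : ∀ u v : ZMod 3 → ℝ, (∀ i, |u i| ≤ κ / 12) → (∀ i, |v i| ≤ κ / 12) →
      G u ≤ G v + dist u v := by
    intro u v hu hv
    refine vt_lip_true hg hcol (hrob u hu).good (hrob v hv).good fun x hx hcx => ?_
    rw [hψv u x hx hcx, hψv v x hx hcx]
    have h1 := dist_le_pi_dist u v (lab x)
    rw [Real.dist_eq] at h1
    have := (abs_le.1 h1).2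
    linarith
  set Q : Set (ZMod 3 → ℝ) := Metric.closedBall 0 (κ / 12) with hQ
  have hQm : ∀ u, u ∈ Q ↔ ∀ i, |u i| ≤ κ / 12 := by
    intro u
    rw [hQ, mem_closedBall_zero_iff, pi_norm_le_iff_of_nonneg (by positivity)]
    simp [Real.norm_eq_abs]
  have hcont : ContinuousOn G Q := by
    have : LipschitzOnWith 1 G Q := by
      refine LipschitzOnWith.of_dist_le_mul fun u hu v hv => ?_
      rw [hQm] at hu hv
      rw [Real.dist_eq, NNReal.coe_one, one_mul, abs_le]
      have h1 := hlip u v hu hv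
      have h2 := hlip v u hv hu
      rw [dist_comm v u] at h2
      constructor <;> linarith
    exact this.continuousOn
  set K : Set (ZMod 3 → ℝ) := Q ∩ G ⁻¹' Set.Iic (v0 + d * B) with hK
  have hKc : IsCompact K := by
    refine (isCompact_closedBall (0 : ZMod 3 → ℝ) (κ / 12)).of_isClosed_subset
      (hcont.preimage_isClosed_of_isClosed Metric.isClosed_closedBall isClosed_Iic)
      Set.inter_subset_left
  have h0K : (fun _ => 0) ∈ K := ⟨(hQm _).2 (by intro i; simp; positivity), hG0⟩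
  have hsum : Continuous fun u : ZMod 3 → ℝ => ∑ i, u i := by fun_prop
  obtain ⟨u, huK, humax⟩ := hKc.exists_isMaxOn ⟨_, h0K⟩ hsum.continuousOn
  have huQ := (hQm u).1 huK.1
  have huG : G u ≤ v0 + d * B := huK.2
  have hup : ∀ i, u i ≤ 2 * (d * B) := by
    intro i
    have h1 := hOR u huQ i
    linarith
  have hs0 : 0 ≤ ∑ i, u i := by
    have := humax h0K
    simpa using this
  have hlow : ∀ i, -(4 * (d * B)) ≤ u i := by
    intro i
    have e3 : ∑ i, u i = u 0 + u 1 + u 2 := Fin.sum_univ_three u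
    rw [e3] at hs0
    have h0 := hup 0
    have h1 := hup 1
    have h2 := hup 2
    fin_cases i
    · show -(4 * (d * B)) ≤ u 0; linarith
    · show -(4 * (d * B)) ≤ u 1; linarith
    · show -(4 * (d * B)) ≤ u 2; linarith
  refine ⟨ψ u, hrob u huQ, ?_, ?_⟩
  · intro x hx hcx
    have h1 := abs_le.1 (hEd x hx)
    have h2 := hup (lab x)
    have h3 := hlow (lab x)
    rw [hψv u x hx hcx, abs_le]
    constructor <;> linarith [h1.1, h1.2]
  · intro i
    obtain ⟨δ', hδ', hgap⟩ := exists_gap c.S (ψ u) (vt col c (ψ u))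
    obtain ⟨ε, hε, hrb⟩ := hrob u huQ
    have hpos : 0 < κ / 12 - 4 * (d * B) := by linarith
    refine ⟨min (min (δ' / 2) (ε / 2)) ((κ / 12 - 4 * (d * B)) / 2), by positivity, ?_⟩
    intro s hs hs'
    have s1 : s < δ' := by
      have := hs'.trans ((min_le_left _ _).trans (min_le_left _ _)); linarith
    have s2 : s ≤ ε := by
      have := hs'.trans ((min_le_left _ _).trans (min_le_right _ _)); linarith
    have s3 : s ≤ κ / 12 - 4 * (d * B) := by
      have := hs'.trans (min_le_right _ _); linarith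
    have hv2 : GoodE c (bump (ψ u) (fun y => col y = true ∧ lab y = i) s) :=
      hrb _ fun x _ => (bump_close hs.le x).trans s2
    refine resp hg hcol (hrob u huQ).good hv2 hgap s1 ?_ hs.le
    by_contra hcon
    rw [not_lt] at hcon
    have hmemQ : ∀ j, |(fun j => u j + ee i s j) j| ≤ κ / 12 := by
      intro j
      have h1 := hup j
      have h2 := hlow j
      unfold ee
      show |u j + if j = i then s else 0| ≤ _
      rw [abs_le]
      split_ifs <;> constructor <;> linarith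
    have heq : vt col c (bump (ψ u) (fun y => col y = true ∧ lab y = i) s) =
        G (fun j => u j + ee i s j) := by
      refine vt_eq_true hg hcol hv2 (hrob _ hmemQ).good fun x hx hcx => ?_
      rw [hψv _ x hx hcx]
      by_cases h : lab x = i
      · rw [bump_of (U := fun y => col y = true ∧ lab y = i) ⟨hcx, h⟩, hψv _ x hx hcx]
        unfold ee; rw [if_pos h]; ring
      · rw [bump_not (U := fun y => col y = true ∧ lab y = i) (fun h' => h h'.2), hψv _ x hx hcx]
        unfold ee; rw [if_neg h]; ring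
    rw [heq] at hcon
    have hmem : (fun j => u j + ee i s j) ∈ K := ⟨(hQm _).2 hmemQ, hcon.trans huG⟩
    have h1 := humax hmem
    have h2 : ∑ j, (u j + ee i s j) = ∑ j, u j + s := by
      rw [Finset.sum_add_distrib]
      congr 1
      unfold ee
      rw [Finset.sum_ite_eq' Finset.univ i]
      simp
    have h3 : ∑ j, (u j + ee i s j) ≤ ∑ j, u j := h1
    linarith

end

end Vale.Agent.P040.H870
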