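import Vale.Agent.P040.H870.Ext

/-!
# No tripod (helper870)

At a robust potential, three arcs cannot all win alone.
-/

set_option linter.unusedVariables false
set_option linter.unusedSectionVars false

namespace Vale.Agent.P040.H870

open Vale.Agent.P040.H906 P040H251

variable {W : Type*} [LinearOrder W]

open Classical in
/-- `E` raised by `s` on `U` -/
noncomputable def bump (E : W → ℝ) (U : W → Prop) (s : ℝ) : W → ℝ :=
  fun y => E y + if U y then s else 0

theorem bump_of {E : W → ℝ} {U : W → Prop} {s : ℝ} {y : W} (h : U y) :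
    bump E U s y = E y + s := by simp [bump, h]

theorem bump_not {E : W → ℝ} {U : W → Prop} {s : ℝ} {y : W} (h : ¬ U y) :
    bump E U s y = E y := by simp [bump, h]

theorem bump_close {E : W → ℝ} {U : W → Prop} {s : ℝ} (hs : 0 ≤ s) (y : W) :
    |bump E U s y - E y| ≤ s := by
  by_cases h : U y
  · rw [bump_of h]; simp [abs_of_nonneg hs]
  · rw [bump_not h]; simpa using hs

theorem bump_mono {E : W → ℝ} {U V : W → Prop} {s : ℝ} (hs : 0 ≤ s) {y : W}
    (h : U y → V y) : bump E U s y ≤ bump E V s y := by
  by_cases h1 : U y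
  · rw [bump_of h1, bump_of (h h1)]
  · rw [bump_not h1]
    by_cases h2 : V y
    · rw [bump_of h2]; linarith
    · rw [bump_not h2]

/-- raising `U` raises the selector at full speed -/
def Hyp (c : Cfg W) (col : W → Bool) (E : W → ℝ) (U : W → Prop) : Prop :=
  ∃ s₀ > 0, ∀ s, 0 < s → s ≤ s₀ → vt col c E + s ≤ vt col c (bump E U s)

section
variable {c : Cfg W} {col : W → Bool} {E : W → ℝ}

theorem Hyp.mono {U V : W → Prop} (hg : c.Good) (hcol : ColOK col c) (hR : Rob c E)
    (hUV : ∀ y ∈ c.S, U y → V y) (h : Hyp c col E U) : Hyp c col E V := by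
  obtain ⟨ρ, hρ, hR⟩ := hR
  obtain ⟨s₀, hs₀, h⟩ := h
  refine ⟨min s₀ ρ, lt_min hs₀ hρ, fun s h1 h2 => (h s h1 (h2.trans (min_le_left _ _))).trans ?_⟩
  have h3 : s ≤ ρ := h2.trans (min_le_right _ _)
  exact vt_mono' hg hcol (hR _ fun y _ => (bump_close h1.le y).trans h3)
    (hR _ fun y _ => (bump_close h1.le y).trans h3)
    fun y hy => bump_mono h1.le (hUV y hy)

/-- the point is the last one on the spine: the mark at infinity follows it -/
noncomputable def top (c : Cfg W) (p : W) : ℕ := by
  classical
  exact if ∀ z ∈ c.S, z ≤ p then 1 else 0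

theorem top_le (c : Cfg W) (p : W) : top c p ≤ 1 := by
  unfold top; split_ifs <;> simp

theorem top_one {p : W} (h : ∀ z ∈ c.S, z ≤ p) : top c p = 1 := by
  unfold top; rw [if_pos h]

theorem of_top {p : W} (h : 0 < top c p) : ∀ z ∈ c.S, z ≤ p := by
  unfold top at h
  by_contra hn
  rw [if_neg hn] at h
  exact lt_irrefl _ h

/-- admissible block data -/
def DOK (c : Cfg W) (col : W → Bool) (lam : Bool → W → ℕ) (D : W → Finset (ℕ × ℕ)) : Prop :=
  ∀ p ∈ c.S, col p = true →
    (∀ d ∈ D p, d.1 ≤ lam false p ∧ d.2 ≤ top c p ∧ (d.1 + d.2) % 2 = 0) ∧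
    (∀ d ∈ D p, ∀ d' ∈ D p, (d.1 ≤ d'.1 ∧ d.2 ≤ d'.2) ∨ (d'.1 ≤ d.1 ∧ d'.2 ≤ d.2))

/-- the points whose block contains a leaf on the arc `i` -/
def Ui (col : W → Bool) (lab : W → ZMod 3) (D : W → Finset (ℕ × ℕ)) (i : ZMod 3) (y : W) : Prop :=
  col y = true ∧ ∃ d ∈ D y, lab y - (d.1 : ZMod 3) = i

theorem top_del {b : Bool} {x y : W} : top c y ≤ top (c.del b x) y := by
  by_cases h : ∀ z ∈ c.S, z ≤ y
  · rw [top_one h, top_one]
    intro z hz
    exact h z (Cfg.mem_del.1 hz).2.2
  · have : top c y = 0 := by unfold top; rw [if_neg h]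
    rw [this]; exact Nat.zero_le _

theorem lamDel_ge (hg : c.Good) {lam : Bool → W → ℕ}
    (hsym : ∀ b, ∀ x ∈ c.S, lam b (c.f b x) = lam b x) {b b' : Bool} {x y : W}
    (hx : x ∈ c.S) (hy : y ∈ c.S) : lam b' y ≤ lamDel c lam b x b' y := by
  rcases Cfg.bool_cases b b' with rfl | rfl
  · rw [lamDel_same]
  · rw [lamDel_other]
    split_ifs with h
    · rcases h with h | h
      · have : lam (!b) y = lam (!b) x := by rw [← h]; exact (hsym _ _ hy).symm
        omega
      · have : lam (!b) y = lam (!b) (c.f b x) := by rw [← h]; exact (hsym _ _ hy).symm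
        omega
    · exact le_rfl

theorem DOK.del (hg : c.Good) {lam : Bool → W → ℕ} {D : W → Finset (ℕ × ℕ)}
    (hsym : ∀ b, ∀ x ∈ c.S, lam b (c.f b x) = lam b x) {b : Bool} {x : W} (hx : x ∈ c.S)
    (h : DOK c col lam D) : DOK (c.del b x) col (lamDel c lam b x) D := by
  intro p hp hcp
  have hpS := (Cfg.mem_del.1 hp).2.2
  obtain ⟨h1, h2⟩ := h p hpS hcp
  refine ⟨fun d hd => ?_, h2⟩
  obtain ⟨k1, k2, k3⟩ := h1 d hd
  exact ⟨k1.trans (lamDel_ge hg hsym hx hpS), k2.trans top_del, k3⟩

/-- the new block data after a max gate -/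
def Dmax (D : W → Finset (ℕ × ℕ)) (p p' : W) (m l : ℕ) : W → Finset (ℕ × ℕ) := by
  classical
  exact fun y => if y = p then D p ∪ (D p').image (fun d => (m + d.1, l + d.2)) else D y

theorem adj_max {p q p' : W} (h1 : ∀ z ∈ c.S, ¬ Cyc p z q) (h2 : ∀ z ∈ c.S, ¬ Cyc q z p')
    (hp : p ∈ c.S) (hq : q ∈ c.S) (hp' : p' ∈ c.S) (hpq : p ≠ q) (hqp' : q ≠ p')
    (hpp' : p ≠ p') : wr p q + wr q p' + top c p' ≤ 1 ∧
      (wr p q + wr q p' + top c p' = 1 → ∀ z ∈ c.S, z ≠ q → z ≠ p' → z ≤ p) := by
  have hc1 := h1 p' hp'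
  have hc2 := h2 p hp
  have ht := top_le c p'
  have hab : ∀ z ∈ c.S, z ≠ q → z ≠ p' → z ≠ p → ¬ Cyc p z q ∧ ¬ Cyc q z p' :=
    fun z hz _ _ _ => ⟨h1 z hz, h2 z hz⟩
  have ht' : 0 < top c p' → p ≤ p' ∧ q ≤ p' := fun h => ⟨of_top h p hp, of_top h q hq⟩
  constructor
  · unfold wr Cyc at *
    rcases Nat.eq_zero_or_pos (top c p') with h0 | h0
    · rw [h0]
      split_ifs <;> simp <;> grind
    · have := ht' h0
      have h01 : top c p' = 1 := by omega
      rw [h01]
      split_ifs <;> simp <;> grind
  · intro hs z hz hzq hzp'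
    by_contra hzp
    have hzp2 : p < z := not_le.1 hzp
    obtain ⟨k1, k2⟩ := hab z hz hzq hzp' hzp2.ne'
    have h3 : 0 < top c p' → z ≤ p' := fun h => of_top h z hz
    unfold wr Cyc at *
    rcases Nat.eq_zero_or_pos (top c p') with h0 | h0
    · rw [h0] at hs
      split_ifs at hs <;> simp at hs <;> grind
    · have := ht' h0
      have := h3 h0
      have h01 : top c p' = 1 := by omega
      rw [h01] at hs
      split_ifs at hs <;> simp at hs <;> grind

theorem DOK.max {e : W → ℤ} {H : ℤ} {lam : Bool → W → ℕ} {lab : W → ZMod 3}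
    {D : W → Finset (ℕ × ℕ)} {q : W} (hg : c.Good) (hc : 2 < c.S.card) (hcol : ColOK col c)
    (hk : Mk c col e H lam lab) (hD : DOK c col lam D) (hq : q ∈ c.S) (hcq : col q = false)
    (hl1 : c.Leaf false (c.f false q)) (hl2 : c.Leaf true q)
    (he : e (c.f false q) = e (c.f true q)) :
    DOK (c.del true q) col (lamDel c lam true q)
      (Dmax D (c.f false q) (c.f true q) (lam false q + lam true q)
        (wr (c.f false q) q + wr q (c.f true q)).toNat) := by
  have A := around hg hc hl2
  set p := c.f false q with hpd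
  set p' := c.f true q with hpd'
  have hp : p ∈ c.S := hg.mem false q hq
  have hp' : p' ∈ c.S := hg.mem true q hq
  have hpq : p ≠ q := hg.ne false q hq
  have hpq' : p' ≠ q := hg.ne true q hq
  have hpp' : p ≠ p' := A.Pq
  have hcp : col p = true := by rw [hpd, hcol false q hq, hcq]; rfl
  have hcp' : col p' = true := by rw [hpd', hcol true q hq, hcq]; rfl
  have hadj1 : ∀ z ∈ c.S, ¬ Cyc p z q := by
    intro z hz
    have := hl1.2 z hz
    rwa [show c.f false p = q from hg.inv false q hq] at this
  have hadj2 : ∀ z ∈ c.S, ¬ Cyc q z p' := hl2.2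
  obtain ⟨a1, a2⟩ := adj_max hadj1 hadj2 hp hq hp' hpq hpq'.symm hpp'
  have w0 : 0 ≤ wr p q := by unfold wr; split_ifs <;> simp
  have w0' : 0 ≤ wr q p' := by unfold wr; split_ifs <;> simp
  set l := (wr p q + wr q p').toNat with hl
  have hl' : (l : ℤ) = wr p q + wr q p' := Int.toNat_of_nonneg (by linarith)
  -- parity of the gate
  have hpar : (lam false q + lam true q + l) % 2 = 0 := by
    have p1 := hk.par false p hp
    have p2 := hk.par true q hq
    rw [show c.f false p = q from hg.inv false q hq] at p1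
    rw [← hpd'] at p2
    have s1 : lam false p = lam false q := hk.sym false q hq
    rw [s1, he] at p1
    simp only [sz, Bool.false_eq_true, if_false, if_true] at p1 p2
    have p3 := dvd_sub p1 p2
    have h4 : (4 : ℤ) ∣ 2 * (wr q p' + lam true q - (wr p q + lam false q)) := by
      have e1 : H + -1 * (e q - e p') - 2 * (wr p q + (lam false q : ℤ)) -
          (H + 1 * (e p' - e q) - 2 * (wr q p' + (lam true q : ℤ))) =
          2 * (wr q p' + lam true q - (wr p q + lam false q)) := by ring
      rwa [e1] at p3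
    have h5 : ((lam false q + lam true q + l : ℕ) : ℤ) = lam false q + lam true q + wr p q +
        wr q p' := by push_cast; rw [hl']; ring
    omega
  have htp : top c p ≤ l := by
    rcases Nat.eq_zero_or_pos (top c p) with h0 | h0
    · rw [h0]; exact Nat.zero_le _
    · have h1 := of_top h0 q hq
      have h2 : wr p q = 1 := by unfold wr; rw [if_pos (lt_of_le_of_ne h1 hpq.symm)]
      have := top_le c p
      have : (1 : ℤ) ≤ l := by rw [hl', h2]; linarith
      omega
  have hnew : lamDel c lam true q false p = lam false q + lam true q + lam false p' := by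
    have := lamDel_other (c := c) (lam := lam) (b := true) (x := q) p
    rw [show (!true) = false from rfl] at this
    rw [this, if_pos (Or.inl (hg.inv false q hq))]
  have htop : l + top c p' ≤ top (c.del true q) p := by
    by_cases h0 : l + top c p' = 0
    · rw [h0]; exact Nat.zero_le _
    · have h1 : wr p q + wr q p' + top c p' = 1 := by
        have : ((l + top c p' : ℕ) : ℤ) ≤ 1 := by push_cast; rw [hl']; exact a1
        push_cast at this
        rw [hl'] at this
        have h2 : (1 : ℤ) ≤ ((l + top c p' : ℕ) : ℤ) := by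
          exact_mod_cast Nat.one_le_iff_ne_zero.2 h0
        push_cast at h2
        rw [hl'] at h2
        linarith
      have h3 : top (c.del true q) p = 1 := by
        apply top_one
        intro z hz
        obtain ⟨z1, z2, z3⟩ := Cfg.mem_del.1 hz
        exact a2 h1 z z3 z2 z1
      rw [h3]
      have : ((l + top c p' : ℕ) : ℤ) = 1 := by push_cast; rw [hl']; linarith
      omega
  intro r hr hcr
  have hrS := (Cfg.mem_del.1 hr).2.2
  by_cases hrp : r = p
  · subst hrp
    have hDp : Dmax D p p' (lam false q + lam true q) l p =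
        D p ∪ (D p').image (fun d => (lam false q + lam true q + d.1, l + d.2)) := by
      unfold Dmax; rw [if_pos rfl]
    rw [hDp]
    obtain ⟨b1, b2⟩ := hD p hp hcp
    obtain ⟨b3, b4⟩ := hD p' hp' hcp'
    have hs1 : lam false p = lam false q := hk.sym false q hq
    constructor
    · intro d hd
      rcases Finset.mem_union.1 hd with h | h
      · obtain ⟨k1, k2, k3⟩ := b1 d h
        exact ⟨k1.trans (lamDel_ge hg hk.sym hq hp), k2.trans top_del, k3⟩
      · obtain ⟨d0, hd0, rfl⟩ := Finset.mem_image.1 h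
        obtain ⟨k1, k2, k3⟩ := b3 d0 hd0
        refine ⟨?_, ?_, ?_⟩
        · rw [hnew]; show _ + d0.1 ≤ _; omega
        · show l + d0.2 ≤ _; omega
        · show (lam false q + lam true q + d0.1 + (l + d0.2)) % 2 = 0
          omega
    · intro d hd d' hd'
      rcases Finset.mem_union.1 hd with h | h <;> rcases Finset.mem_union.1 hd' with h' | h'
      · exact b2 d h d' h'
      · obtain ⟨d0, hd0, rfl⟩ := Finset.mem_image.1 h'
        obtain ⟨k1, k2, k3⟩ := b1 d h
        left
        constructor
        · show d.1 ≤ lam false q + lam true q + d0.1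
          omega
        · show d.2 ≤ l + d0.2
          omega
      · obtain ⟨d0, hd0, rfl⟩ := Finset.mem_image.1 h
        obtain ⟨k1, k2, k3⟩ := b1 d' h'
        right
        constructor
        · show d'.1 ≤ lam false q + lam true q + d0.1
          omega
        · show d'.2 ≤ l + d0.2
          omega
      · obtain ⟨d0, hd0, rfl⟩ := Finset.mem_image.1 h
        obtain ⟨d1, hd1, rfl⟩ := Finset.mem_image.1 h'
        rcases b4 d0 hd0 d1 hd1 with k | k
        · left
          constructor
          · show lam false q + lam true q + d0.1 ≤ lam false q + lam true q + d1.1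
            omega
          · show l + d0.2 ≤ l + d1.2
            omega
        · right
          constructor
          · show lam false q + lam true q + d1.1 ≤ lam false q + lam true q + d0.1
            omega
          · show l + d1.2 ≤ l + d0.2
            omega
  · have h1 := (DOK.del hg hk.sym hq hD (b := true)) r hr hcr
    have h2 : Dmax D p p' (lam false q + lam true q) l r = D r := by
      unfold Dmax; rw [if_neg hrp]
    rw [h2]
    exact h1

end

end Vale.Agent.P040.H870
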